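import Vale.Agent.P181.ST.H775.FDef
import Vale.Agent.P181.ST.Defs
import Vale.Agent.P181.SZR2.Col

set_option autoImplicit false

/-!
# P181, ST, T2d: `F_v` is a highest weight polynomial, translation invariant, of degree at most `a`
in each column
-/

open MvPolynomial

namespace Vale.Agent.P181.ST.H775

open Vale.Agent.P181.SZR5 (ren ren_X rowOp_ren)
open Vale.Agent.P181.T4 (HW mem_HW rowOp rowOp_leibniz rowOp_C rowOp_var)
open Vale.Agent.P181.SZR2a (rowOp_aeval rowOp_aeval_zero)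
open Vale.Agent.P181.SZR2 (wh_aeval weight_fintype)
open Vale.Agent.P181.DH.H674 (Ad)

/-! ### Derivations -/

lemma kill_pow {R : Type} [CommRing R] {D : R → R} (h : ∀ f g, D (f * g) = D f * g + f * D g)
    (h1 : D 1 = 0) {f : R} (hf : D f = 0) (k : ℕ) : D (f ^ k) = 0 := by
  induction k with
  | zero => rw [pow_zero, h1]
  | succ k ih => rw [pow_succ, h, ih, hf, zero_mul, mul_zero, add_zero]

lemma kill_prod {R : Type} [CommRing R] {D : R → R} (h : ∀ f g, D (f * g) = D f * g + f * D g)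
    (h1 : D 1 = 0) {ι : Type} (s : Finset ι) (f : ι → R) (hf : ∀ i, D (f i) = 0) :
    D (∏ i ∈ s, f i) = 0 := by
  classical
  induction s using Finset.induction_on with
  | empty => rw [Finset.prod_empty, h1]
  | insert a s ha ih => rw [Finset.prod_insert ha, h, ih, hf, zero_mul, mul_zero, add_zero]

section Tr

variable {n : ℕ} {σ τ : Type}

/-- The translation operator. -/
noncomputable def tr [Fintype σ] (i : Fin n) (f : MvPolynomial (Fin n × σ) ℂ) :
    MvPolynomial (Fin n × σ) ℂ := ∑ j, pderiv (i, j) f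

lemma tr_leibniz [Fintype σ] (i : Fin n) (f g : MvPolynomial (Fin n × σ) ℂ) :
    tr i (f * g) = tr i f * g + f * tr i g := by
  unfold tr
  rw [Finset.sum_mul, Finset.mul_sum, ← Finset.sum_add_distrib]
  refine Finset.sum_congr rfl fun j _ => ?_
  rw [Derivation.leibniz, smul_eq_mul, smul_eq_mul]
  ring

lemma tr_C [Fintype σ] (i : Fin n) (r : ℂ) : tr i (C r : MvPolynomial (Fin n × σ) ℂ) = 0 :=
  Finset.sum_eq_zero fun j _ => pderiv_C

lemma tr_one [Fintype σ] (i : Fin n) : tr i (1 : MvPolynomial (Fin n × σ) ℂ) = 0 := by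
  rw [← C_1, tr_C]

lemma tr_add [Fintype σ] (i : Fin n) (f g : MvPolynomial (Fin n × σ) ℂ) :
    tr i (f + g) = tr i f + tr i g := by
  unfold tr
  rw [← Finset.sum_add_distrib]
  exact Finset.sum_congr rfl fun j _ => map_add _ _ _

lemma tr_sub [Fintype σ] (i : Fin n) (f g : MvPolynomial (Fin n × σ) ℂ) :
    tr i (f - g) = tr i f - tr i g := by
  unfold tr
  rw [← Finset.sum_sub_distrib]
  exact Finset.sum_congr rfl fun j _ => map_sub _ _ _

lemma tr_zero [Fintype σ] (i : Fin n) : tr i (0 : MvPolynomial (Fin n × σ) ℂ) = 0 :=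
  Finset.sum_eq_zero fun j _ => map_zero _

lemma tr_X [Fintype σ] (i : Fin n) (p : Fin n × σ) :
    tr i (X p : MvPolynomial (Fin n × σ) ℂ) = if p.1 = i then 1 else 0 := by
  classical
  unfold tr
  simp only [pderiv_X, Pi.single_apply]
  by_cases h : p.1 = i
  · rw [if_pos h, Finset.sum_eq_single p.2]
    · rw [if_pos (show p = (i, p.2) from Prod.ext h rfl)]
    · intro j _ hj
      rw [if_neg (fun h' => hj (congrArg Prod.snd h').symm)]
    · intro h'
      exact absurd (Finset.mem_univ _) h'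
  · rw [if_neg h]
    refine Finset.sum_eq_zero fun j _ => ?_
    rw [if_neg (fun h' => h (congrArg Prod.fst h'))]

lemma tr_ren [Fintype σ] [Fintype τ] (φ : σ → τ) (i : Fin n) (f : MvPolynomial (Fin n × σ) ℂ) :
    tr i (ren n φ f) = ren n φ (tr i f) := by
  induction f using MvPolynomial.induction_on with
  | C r =>
    have h : ren n φ (C r) = C r := rename_C _ _
    rw [h, tr_C, tr_C, map_zero]
  | add p q hp hq => rw [map_add, tr_add, tr_add, map_add, hp, hq]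
  | mul_X p k hp =>
    rw [map_mul, tr_leibniz, tr_leibniz, hp, map_add, map_mul, map_mul, ren_X, tr_X, tr_X]
    split_ifs with h
    · rw [map_one]
    · rw [map_zero]

lemma tr_aeval_zero {ρ : Type} [Fintype τ] {i : Fin n} (φ : ρ → MvPolynomial (Fin n × τ) ℂ)
    (h : ∀ p, tr i (φ p) = 0) (g : MvPolynomial ρ ℂ) : tr i (aeval φ g) = 0 := by
  induction g using MvPolynomial.induction_on with
  | C r =>
    rw [aeval_C]
    exact tr_C _ _
  | add f g hf hg => rw [map_add, tr_add, hf, hg, add_zero]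
  | mul_X f p hf =>
    rw [map_mul, aeval_X, tr_leibniz, hf, h p, zero_mul, mul_zero, add_zero]

lemma tr_lf [Fintype σ] (k : σ → ℂ) (hk : ∑ c, k c = 0) (i r : Fin n) : tr i (lf k r) = 0 := by
  have h1 : tr i (lf k r) = ∑ c, tr i (C (k c) * X (r, c)) := by
    unfold tr lf
    rw [Finset.sum_comm]
    exact Finset.sum_congr rfl fun j _ => map_sum _ _ _
  rw [h1]
  have h2 : ∀ c : σ, tr i (C (k c) * X (r, c)) = C (k c) * (if r = i then 1 else 0) := by
    intro c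
    rw [tr_leibniz, tr_C, zero_mul, zero_add, tr_X]
  rw [Finset.sum_congr rfl fun c _ => h2 c, ← Finset.sum_mul, ← map_sum, hk, map_zero, zero_mul]

lemma rowOp_lf [Fintype σ] (k : σ → ℂ) (s i r : Fin n) :
    rowOp s i (lf k r) = if r = i then lf k s else 0 := by
  unfold lf
  rw [map_sum]
  have h2 : ∀ c : σ, rowOp s i (C (k c) * X (r, c)) =
      C (k c) * (if r = i then X (s, c) else 0) := by
    intro c
    rw [rowOp_leibniz, rowOp_C, zero_mul, zero_add, rowOp_var]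
  rw [Finset.sum_congr rfl fun c _ => h2 c]
  split_ifs with h
  · rfl
  · simp

/-- A renamed linear form is homogeneous. -/
lemma wh_lf [Fintype σ] (φ : σ → τ) (w : Fin n × τ → ℕ) (k : σ → ℂ) (r : Fin n) {N : ℕ}
    (h : ∀ c, w (r, φ c) = N) : IsWeightedHomogeneous w (ren n φ (lf k r)) N := by
  unfold lf
  rw [map_sum]
  refine IsWeightedHomogeneous.sum _ _ _ fun c _ => ?_
  have h1 : ren n φ (C (k c)) = C (k c) := rename_C _ _
  rw [map_mul, h1, ren_X]
  have h2 := (isWeightedHomogeneous_C w (k c)).mul (isWeightedHomogeneous_X ℂ w (r, φ c))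
  rw [zero_add, h c] at h2
  exact h2

end Tr

variable {m c g1 g2 : ℕ}

lemma sum_kA : ∑ c, kA c = 0 := by
  rw [Fin.sum_univ_three]
  simp [kA]

lemma sum_kC : ∑ c, kC c = 0 := by
  rw [Fin.sum_univ_three]
  simp [kC]
  norm_num

/-! ### The row operators -/

lemma rowOp_ZF (ga : Fin g1 → ℂ) (s i r : Fin (m + 1)) :
    rowOp s i (ZF (c := c) (g2 := g2) ga r) = if r = i then ZF ga s else 0 := by
  unfold ZF
  rw [rowOp_ren, rowOp_lf]
  split_ifs
  · rfl
  · exact map_zero _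

lemma rowOp_ZG (gb : Fin g2 → ℂ) (s i r : Fin (m + 1)) :
    rowOp s i (ZG (c := c) (g1 := g1) gb r) = if r = i then ZG gb s else 0 := by
  unfold ZG
  rw [rowOp_ren, rowOp_lf]
  split_ifs
  · rfl
  · exact map_zero _

lemma rowOp_AF (q : Fin c) (s i r : Fin (m + 1)) :
    rowOp s i (AF (g1 := g1) (g2 := g2) q r) = if r = i then AF q s else 0 := by
  unfold AF
  rw [rowOp_ren, rowOp_lf]
  split_ifs
  · rfl
  · exact map_zero _

lemma rowOp_CF (q : Fin c) (s i r : Fin (m + 1)) :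
    rowOp s i (CF (g1 := g1) (g2 := g2) q r) = if r = i then CF q s else 0 := by
  unfold CF
  rw [rowOp_ren, rowOp_lf]
  split_ifs
  · rfl
  · exact map_zero _

lemma rowOp_one {n : ℕ} {σ : Type} [Fintype σ] (s i : Fin n) :
    rowOp s i (1 : MvPolynomial (Fin n × σ) ℂ) = 0 := by
  rw [← C_1, rowOp_C]

lemma rowOp_RF (ga : Fin g1 → ℂ) (gb : Fin g2 → ℂ) (D : ℕ) (lab : Fin c → ℕ × ℕ)
    (s : Fin (m + 1)) (i : Fin m) : rowOp s i.succ (RF ga gb D lab) = 0 := by
  have hL := rowOp_leibniz (n := m + 1) (σ := Cols c g1 g2) s i.succ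
  have h1 := rowOp_one (n := m + 1) (σ := Cols c g1 g2) s i.succ
  have h0 : (0 : Fin (m + 1)) ≠ i.succ := (Fin.succ_ne_zero i).symm
  unfold RF
  rw [hL, hL]
  rw [kill_pow (D := rowOp s i.succ) hL h1 (by rw [rowOp_ZF, if_neg h0]) (g1 - D),
    kill_pow (D := rowOp s i.succ) hL h1 (by rw [rowOp_ZG, if_neg h0]) g2,
    kill_prod (D := rowOp s i.succ) hL h1 Finset.univ _ (fun q => ?_)]
  · ring
  · rw [hL, kill_pow (D := rowOp s i.succ) hL h1 (by rw [rowOp_AF, if_neg h0]) 2,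
      kill_pow (D := rowOp s i.succ) hL h1 (by rw [rowOp_CF, if_neg h0]) (lab q).1]
    ring

lemma rowOp_phiF (ga : Fin g1 → ℂ) (s : Fin (m + 1)) (i : Fin m) (p : Fin m × Fin c) :
    rowOp s i.succ (phiF (g2 := g2) ga p) =
      if p.1 = i then ZF ga 0 * CF p.2 s - ZF ga s * CF p.2 0 else 0 := by
  have h0 : (0 : Fin (m + 1)) ≠ i.succ := (Fin.succ_ne_zero i).symm
  unfold phiF
  rw [map_sub, rowOp_leibniz, rowOp_leibniz, rowOp_ZF, rowOp_CF, rowOp_ZF, rowOp_CF, if_neg h0,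
    if_neg h0]
  by_cases h : p.1 = i
  · rw [if_pos (congrArg Fin.succ h), if_pos (congrArg Fin.succ h), if_pos h]
    ring
  · have h' : p.1.succ ≠ i.succ := fun e => h (Fin.succ_injective _ e)
    rw [if_neg h', if_neg h', if_neg h]
    ring

lemma rowOp_FV (ga : Fin g1 → ℂ) (gb : Fin g2 → ℂ) (D : ℕ) (lab : Fin c → ℕ × ℕ)
    {nu : Fin m → ℕ} {v : MvPolynomial (Fin m × Fin c) ℂ} (hv : v ∈ HW m (Fin c) nu)
    (s i : Fin (m + 1)) (hsi : s < i) : rowOp s i (FV ga gb D lab v) = 0 := by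
  obtain ⟨i, rfl⟩ := Fin.exists_succ_eq.2 (Fin.pos_iff_ne_zero.1 ((Fin.zero_le s).trans_lt hsi))
  rw [FV_apply, rowOp_leibniz, rowOp_RF, zero_mul, zero_add]
  revert hsi
  refine Fin.cases ?_ (fun s => ?_) s
  · intro _
    rw [rowOp_aeval_zero _ (fun p => ?_) v, mul_zero]
    rw [rowOp_phiF, sub_self, ite_self]
  · intro hsi
    rw [rowOp_aeval (s := s) (i := i) _ (fun p => ?_) v,
      hv.2 s i (Fin.succ_lt_succ_iff.1 hsi), map_zero, mul_zero]
    rw [rowOp_phiF, rowOp_var]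
    by_cases hp : p.1 = i
    · rw [if_pos hp, if_pos hp, aeval_X]
      rfl
    · rw [if_neg hp, if_neg hp, map_zero]

/-! ### Translations -/

lemma tr_ZF {ga : Fin g1 → ℂ} (hga : ∑ p, ga p = 0) (i r : Fin (m + 1)) :
    tr i (ZF (c := c) (g2 := g2) ga r) = 0 := by
  unfold ZF
  rw [tr_ren, tr_lf _ hga, map_zero]

lemma tr_ZG {gb : Fin g2 → ℂ} (hgb : ∑ p, gb p = 0) (i r : Fin (m + 1)) :
    tr i (ZG (c := c) (g1 := g1) gb r) = 0 := by
  unfold ZG
  rw [tr_ren, tr_lf _ hgb, map_zero]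

lemma tr_AF (q : Fin c) (i r : Fin (m + 1)) : tr i (AF (g1 := g1) (g2 := g2) q r) = 0 := by
  unfold AF
  rw [tr_ren, tr_lf _ sum_kA, map_zero]

lemma tr_CF (q : Fin c) (i r : Fin (m + 1)) : tr i (CF (g1 := g1) (g2 := g2) q r) = 0 := by
  unfold CF
  rw [tr_ren, tr_lf _ sum_kC, map_zero]

lemma tr_FV {ga : Fin g1 → ℂ} {gb : Fin g2 → ℂ} (hga : ∑ p, ga p = 0) (hgb : ∑ p, gb p = 0)
    (D : ℕ) (lab : Fin c → ℕ × ℕ) (v : MvPolynomial (Fin m × Fin c) ℂ) (i : Fin (m + 1)) :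
    tr i (FV ga gb D lab v) = 0 := by
  have hL := tr_leibniz (n := m + 1) (σ := Cols c g1 g2) i
  have h1 := tr_one (n := m + 1) (σ := Cols c g1 g2) i
  rw [FV_apply, hL, tr_aeval_zero _ (fun p => ?_) v, mul_zero, add_zero]
  · unfold RF
    rw [hL, hL]
    rw [kill_pow (D := tr i) hL h1 (tr_ZF hga i 0) (g1 - D),
      kill_pow (D := tr i) hL h1 (tr_ZG hgb i 0) g2,
      kill_prod (D := tr i) hL h1 Finset.univ _ (fun q => ?_)]
    · ring
    · rw [hL, kill_pow (D := tr i) hL h1 (tr_AF q i 0) 2,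
        kill_pow (D := tr i) hL h1 (tr_CF q i 0) (lab q).1]
      ring
  · unfold phiF
    rw [tr_sub, hL, hL, tr_ZF hga, tr_ZF hga, tr_CF, tr_CF]
    ring

/-! ### Degrees -/

/-- The group of a column. -/
def gr : Cols c g1 g2 → Fin c ⊕ Bool
  | Sum.inl p => Sum.inl p.1
  | Sum.inr (Sum.inl _) => Sum.inr false
  | Sum.inr (Sum.inr _) => Sum.inr true

/-- A weight which is additive in the row and the group. -/
def wt (α : Fin (m + 1) → ℕ) (β : Fin c ⊕ Bool → ℕ) : Fin (m + 1) × Cols c g1 g2 → ℕ :=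
  fun p => α p.1 + β (gr p.2)

/-- The degree of `F_v`. -/
def NN (g1 g2 D : ℕ) (lab : Fin c → ℕ × ℕ) (nu : Fin m → ℕ) (α : Fin (m + 1) → ℕ)
    (β : Fin c ⊕ Bool → ℕ) : ℕ :=
  (g1 - D) * (α 0 + β (Sum.inr false)) + g2 * (α 0 + β (Sum.inr true)) +
    ∑ q, (2 * (α 0 + β (Sum.inl q)) + (lab q).1 * (α 0 + β (Sum.inl q))) +
    (D * (α 0 + β (Sum.inr false)) + ∑ k, nu k * α k.succ + ∑ q, (lab q).2 * β (Sum.inl q))

lemma wh_ZF (α : Fin (m + 1) → ℕ) (β : Fin c ⊕ Bool → ℕ) (ga : Fin g1 → ℂ) (r : Fin (m + 1)) :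
    IsWeightedHomogeneous (wt α β) (ZF (c := c) (g2 := g2) ga r) (α r + β (Sum.inr false)) :=
  wh_lf _ _ _ _ fun _ => rfl

lemma wh_ZG (α : Fin (m + 1) → ℕ) (β : Fin c ⊕ Bool → ℕ) (gb : Fin g2 → ℂ) (r : Fin (m + 1)) :
    IsWeightedHomogeneous (wt α β) (ZG (c := c) (g1 := g1) gb r) (α r + β (Sum.inr true)) :=
  wh_lf _ _ _ _ fun _ => rfl

lemma wh_AF (α : Fin (m + 1) → ℕ) (β : Fin c ⊕ Bool → ℕ) (q : Fin c) (r : Fin (m + 1)) :
    IsWeightedHomogeneous (wt α β) (AF (g1 := g1) (g2 := g2) q r) (α r + β (Sum.inl q)) :=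
  wh_lf _ _ _ _ fun _ => rfl

lemma wh_CF (α : Fin (m + 1) → ℕ) (β : Fin c ⊕ Bool → ℕ) (q : Fin c) (r : Fin (m + 1)) :
    IsWeightedHomogeneous (wt α β) (CF (g1 := g1) (g2 := g2) q r) (α r + β (Sum.inl q)) :=
  wh_lf _ _ _ _ fun _ => rfl

lemma wh_phiF (α : Fin (m + 1) → ℕ) (β : Fin c ⊕ Bool → ℕ) (ga : Fin g1 → ℂ)
    (p : Fin m × Fin c) : IsWeightedHomogeneous (wt α β) (phiF (g2 := g2) ga p)
      (α 0 + β (Sum.inr false) + (α p.1.succ + β (Sum.inl p.2))) := by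
  have h1 := (wh_ZF (c := c) (g2 := g2) α β ga 0).mul (wh_CF (g1 := g1) (g2 := g2) α β p.2
    p.1.succ)
  have h2 := (wh_ZF (c := c) (g2 := g2) α β ga p.1.succ).mul (wh_CF (g1 := g1) (g2 := g2) α β
    p.2 0)
  have h3 : α p.1.succ + β (Sum.inr false) + (α 0 + β (Sum.inl p.2)) =
      α 0 + β (Sum.inr false) + (α p.1.succ + β (Sum.inl p.2)) := by ring
  rw [h3] at h2
  exact h1.sub h2

lemma wh_v (x : ℕ) (α : Fin (m + 1) → ℕ) (β : Fin c ⊕ Bool → ℕ) {lab : Fin c → ℕ × ℕ}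
    {nu : Fin m → ℕ} {v : MvPolynomial (Fin m × Fin c) ℂ} (hv : v ∈ GP m (Fin c) lab nu) :
    IsWeightedHomogeneous (fun p : Fin m × Fin c => x + (α p.1.succ + β (Sum.inl p.2))) v
      ((∑ i, nu i) * x + ∑ k, nu k * α k.succ + ∑ q, (lab q).2 * β (Sum.inl q)) := by
  intro u hu
  have h1 := hv.1.1 u hu
  have h2 := hv.2.1 u hu
  rw [weight_fintype]
  simp only [mul_add, Finset.sum_add_distrib]
  have e1 : ∑ p : Fin m × Fin c, u p * x = (∑ i, nu i) * x := by
    rw [← Finset.sum_mul, Fintype.sum_prod_type]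
    congr 1
    exact Finset.sum_congr rfl fun i _ => h1 i
  have e2 : ∑ p : Fin m × Fin c, u p * α p.1.succ = ∑ k, nu k * α k.succ := by
    rw [Fintype.sum_prod_type]
    refine Finset.sum_congr rfl fun i _ => ?_
    rw [← h1 i, Finset.sum_mul]
  have e3 : ∑ p : Fin m × Fin c, u p * β (Sum.inl p.2) = ∑ q, (lab q).2 * β (Sum.inl q) := by
    rw [Fintype.sum_prod_type_right]
    refine Finset.sum_congr rfl fun q _ => ?_
    rw [← h2 q, Finset.sum_mul]
  rw [e1, e2, e3, add_assoc]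

lemma wh_FV (α : Fin (m + 1) → ℕ) (β : Fin c ⊕ Bool → ℕ) (ga : Fin g1 → ℂ) (gb : Fin g2 → ℂ)
    {lab : Fin c → ℕ × ℕ} {nu : Fin m → ℕ} {v : MvPolynomial (Fin m × Fin c) ℂ}
    (hv : v ∈ GP m (Fin c) lab nu) :
    IsWeightedHomogeneous (wt α β) (FV ga gb (∑ i, nu i) lab v)
      (NN g1 g2 (∑ i, nu i) lab nu α β) := by
  rw [FV_apply, RF, NN]
  refine IsWeightedHomogeneous.mul (IsWeightedHomogeneous.mul (IsWeightedHomogeneous.mul
    ?_ ?_) ?_) ?_
  · have h := (wh_ZF (c := c) (g2 := g2) α β ga 0).pow (g1 - ∑ i, nu i)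
    rwa [smul_eq_mul] at h
  · have h := (wh_ZG (c := c) (g1 := g1) α β gb 0).pow g2
    rwa [smul_eq_mul] at h
  · refine IsWeightedHomogeneous.prod _ _ _ fun q _ => ?_
    have h := ((wh_AF (g1 := g1) (g2 := g2) α β q 0).pow 2).mul
      ((wh_CF (g1 := g1) (g2 := g2) α β q 0).pow (lab q).1)
    rwa [smul_eq_mul, smul_eq_mul] at h
  · exact wh_aeval (wt α β) _ _ (fun p => wh_phiF α β ga p) (wh_v _ α β hv)

lemma weight_row (k : Fin (m + 1)) (u : Fin (m + 1) × Cols c g1 g2 →₀ ℕ) :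
    Finsupp.weight (wt (fun r => if r = k then 1 else 0) (fun _ => 0)) u = ∑ j, u (k, j) := by
  classical
  rw [weight_fintype, Fintype.sum_prod_type, Finset.sum_eq_single k]
  · refine Finset.sum_congr rfl fun j _ => ?_
    rw [wt, if_pos rfl]
    ring
  · intro r _ hr
    refine Finset.sum_eq_zero fun j _ => ?_
    rw [wt, if_neg hr]
    ring
  · intro h
    exact absurd (Finset.mem_univ _) h

open scoped Classical in
lemma weight_grp (G : Fin c ⊕ Bool) (u : Fin (m + 1) × Cols c g1 g2 →₀ ℕ) :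
    Finsupp.weight (wt (fun _ => 0) (fun x => if x = G then 1 else 0)) u =
      ∑ j, ∑ i, if gr j = G then u (i, j) else 0 := by
  rw [weight_fintype, Fintype.sum_prod_type_right]
  refine Finset.sum_congr rfl fun j _ => Finset.sum_congr rfl fun i _ => ?_
  rw [wt]
  dsimp only
  split_ifs <;> ring

/-- The degree of a group. -/
def dG (g1 g2 : ℕ) (lab : Fin c → ℕ × ℕ) : Fin c ⊕ Bool → ℕ
  | Sum.inl q => 2 + (lab q).1 + (lab q).2
  | Sum.inr false => g1
  | Sum.inr true => g2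

open scoped Classical in
/-- The degree of `F_v` in a group of columns. -/
lemma deg_group {ga : Fin g1 → ℂ} {gb : Fin g2 → ℂ} {lab : Fin c → ℕ × ℕ} {nu : Fin m → ℕ}
    {v : MvPolynomial (Fin m × Fin c) ℂ} (hv : v ∈ GP m (Fin c) lab nu)
    (hD : ∑ i, nu i ≤ g1) (G : Fin c ⊕ Bool) {u : Fin (m + 1) × Cols c g1 g2 →₀ ℕ}
    (hu : coeff u (FV ga gb (∑ i, nu i) lab v) ≠ 0) :
    (∑ j, ∑ i, if gr j = G then u (i, j) else 0) = dG g1 g2 lab G := by
  have h1 := wh_FV (fun _ => 0) (fun x => if x = G then 1 else 0) ga gb hv hu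
  rw [weight_grp] at h1
  rw [h1, NN]
  rcases G with q | b
  · have e1 : ∀ q' : Fin c, ((Sum.inl q' : Fin c ⊕ Bool) = Sum.inl q) = (q' = q) := fun q' =>
      propext ⟨fun h => Sum.inl.inj h, fun h => congrArg _ h⟩
    simp only [e1, reduceCtorEq, if_false, mul_zero, add_zero, zero_add, Finset.sum_const_zero,
      mul_ite, mul_one, Finset.sum_add_distrib, Finset.sum_ite_eq', Finset.mem_univ, if_true, dG]
  · cases b
    · simp [dG]
      omega
    · simp [dG]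

/-- The column degrees of `F_v`. -/
lemma col_FV {a : ℕ} {ga : Fin g1 → ℂ} {gb : Fin g2 → ℂ} {lab : Fin c → ℕ × ℕ}
    {nu : Fin m → ℕ} {v : MvPolynomial (Fin m × Fin c) ℂ} (hv : v ∈ GP m (Fin c) lab nu)
    (hD : ∑ i, nu i ≤ g1) (h1 : g1 ≤ a) (h2 : g2 ≤ a)
    (h3 : ∀ q, (lab q).1 + (lab q).2 + 2 ≤ a) {u : Fin (m + 1) × Cols c g1 g2 →₀ ℕ}
    (hu : coeff u (FV ga gb (∑ i, nu i) lab v) ≠ 0) (j : Cols c g1 g2) :
    ∑ i, u (i, j) ≤ a := by
  classical
  have h4 := deg_group hv hD (gr j) hu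
  have h5 : ∑ i, u (i, j) ≤ ∑ j', ∑ i, if gr j' = gr j then u (i, j') else 0 := by
    refine le_trans (le_of_eq ?_) (Finset.single_le_sum
      (f := fun j' => ∑ i, if gr j' = gr j then u (i, j') else 0) (fun _ _ => Nat.zero_le _)
      (Finset.mem_univ j))
    refine Finset.sum_congr rfl fun i _ => ?_
    rw [if_pos rfl]
  rw [h4] at h5
  refine h5.trans ?_
  rcases gr j with q | b
  · have := h3 q
    change 2 + (lab q).1 + (lab q).2 ≤ a
    omega
  · cases b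
    · exact h1
    · exact h2

/-- **(T2d)** -/
theorem Ad_FV {a : ℕ} {ga : Fin g1 → ℂ} {gb : Fin g2 → ℂ} (hga : ∑ p, ga p = 0)
    (hgb : ∑ p, gb p = 0) {lab : Fin c → ℕ × ℕ} {mu : Fin (m + 1) → ℕ}
    {v : MvPolynomial (Fin m × Fin c) ℂ} (hv : v ∈ GP m (Fin c) lab (SZ.tl mu))
    (hD : ∑ i, SZ.tl mu i ≤ g1) (h1 : g1 ≤ a) (h2 : g2 ≤ a)
    (h3 : ∀ q, (lab q).1 + (lab q).2 + 2 ≤ a) (h4 : mu 0 = g1 + g2 + 2 * c + ∑ q, (lab q).1) :
    Ad (m + 1) (Cols c g1 g2) a mu (FV ga gb (∑ i, SZ.tl mu i) lab v) := by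
  classical
  refine ⟨mem_HW.2 ⟨fun u hu k => ?_, fun s i hsi => rowOp_FV ga gb _ lab hv.1 s i hsi⟩,
    fun u hu j => col_FV hv hD h1 h2 h3 hu j, fun i => tr_FV hga hgb _ lab v i⟩
  have h5 := wh_FV (fun r => if r = k then 1 else 0) (fun _ => 0) ga gb hv hu
  rw [weight_row] at h5
  rw [h5, NN]
  revert h5
  refine Fin.cases ?_ (fun k => ?_) k
  · intro _
    have e1 : ∀ k' : Fin m, ((k'.succ : Fin (m + 1)) = 0) = False := fun k' =>
      eq_false (Fin.succ_ne_zero k')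
    simp only [e1, if_true, if_false, add_zero, mul_one, mul_zero, Finset.sum_const_zero,
      Finset.sum_add_distrib, Finset.sum_const, Finset.card_univ, Fintype.card_fin, smul_eq_mul]
    rw [h4]
    omega
  · intro _
    have e1 : ((0 : Fin (m + 1)) = k.succ) = False := eq_false (Fin.succ_ne_zero k).symm
    have e2 : ∀ k' : Fin m, ((k'.succ : Fin (m + 1)) = k.succ) = (k' = k) := fun k' =>
      propext Fin.succ_inj
    simp only [e1, e2, if_false, add_zero, mul_zero, Finset.sum_const_zero, zero_add, mul_ite,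
      mul_one, Finset.sum_ite_eq', Finset.mem_univ, if_true]
    rfl

end Vale.Agent.P181.ST.H775
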