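import Vale.Agent.P181.ST.H775.Plug
import Vale.Agent.P181.ST.H613.Fin
import Vale.Agent.P181.ST.H742.UpG
import Vale.Agent.P181.ST.H984.All
import Vale.Agent.P181.ST.H607.Two

set_option autoImplicit false

/-!
# P181, ST: a short tail behind the second row, closed
-/

namespace Vale.Agent.P181.ST.H775

/-- **(ST)** Every `a ≤ b`, `λ_3 ≥ 2`, `16 D ≤ a`, `P w ≤ a ^ 2`. No hypothesis. -/
theorem shortTail : ShortTail :=
  H613.shortTail_of H742.upG lowG H607.twoBox H984.cntAT H984.cntBT

end Vale.Agent.P181.ST.H775
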