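import Vale.Agent.P181.SZR2a.RowOp
import Vale.Agent.P181.DH.H674.Star

set_option autoImplicit false

/-!
# P181, ST, T2: the polynomial `F_v`

Columns: `c` triples and two groups of `g1`, `g2` columns.
-/

open MvPolynomial

namespace Vale.Agent.P181.ST.H775

open Vale.Agent.P181.SZR5 (ren ren_X)
open Vale.Agent.P181.T4 (rowOp rowOp_leibniz rowOp_C rowOp_var)

/-- The columns. -/
abbrev Cols (c g1 g2 : ℕ) : Type := (Fin c × Fin 3) ⊕ (Fin g1 ⊕ Fin g2)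

/-- A linear form in the entries of the row `r`. -/
noncomputable def lf {n : ℕ} {σ : Type} [Fintype σ] (k : σ → ℂ) (r : Fin n) :
    MvPolynomial (Fin n × σ) ℂ := ∑ c, C (k c) * X (r, c)

/-- `y - y'` -/
def kA : Fin 3 → ℂ := ![1, -1, 0]

/-- `y + y' - 2 y''` -/
def kC : Fin 3 → ℂ := ![1, 1, -2]

variable {m c g1 g2 : ℕ}

/-- The first group. -/
noncomputable def ZF (ga : Fin g1 → ℂ) (r : Fin (m + 1)) :
    MvPolynomial (Fin (m + 1) × Cols c g1 g2) ℂ :=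
  ren (m + 1) (fun p => Sum.inr (Sum.inl p)) (lf ga r)

/-- The second group. -/
noncomputable def ZG (gb : Fin g2 → ℂ) (r : Fin (m + 1)) :
    MvPolynomial (Fin (m + 1) × Cols c g1 g2) ℂ :=
  ren (m + 1) (fun p => Sum.inr (Sum.inr p)) (lf gb r)

/-- `y - y'` in the triple `q`. -/
noncomputable def AF (q : Fin c) (r : Fin (m + 1)) :
    MvPolynomial (Fin (m + 1) × Cols c g1 g2) ℂ :=
  ren (m + 1) (fun t => Sum.inl (q, t)) (lf kA r)

/-- `y + y' - 2 y''` in the triple `q`. -/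
noncomputable def CF (q : Fin c) (r : Fin (m + 1)) :
    MvPolynomial (Fin (m + 1) × Cols c g1 g2) ℂ :=
  ren (m + 1) (fun t => Sum.inl (q, t)) (lf kC r)

/-- The minors. -/
noncomputable def phiF (ga : Fin g1 → ℂ) (p : Fin m × Fin c) :
    MvPolynomial (Fin (m + 1) × Cols c g1 g2) ℂ :=
  ZF ga 0 * CF p.2 p.1.succ - ZF ga p.1.succ * CF p.2 0

/-- The factor in the variables of row zero. -/
noncomputable def RF (ga : Fin g1 → ℂ) (gb : Fin g2 → ℂ) (D : ℕ) (lab : Fin c → ℕ × ℕ) :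
    MvPolynomial (Fin (m + 1) × Cols c g1 g2) ℂ :=
  ZF ga 0 ^ (g1 - D) * ZG gb 0 ^ g2 * ∏ q, (AF q 0 ^ 2 * CF q 0 ^ (lab q).1)

/-- `F_v` -/
noncomputable def FV (ga : Fin g1 → ℂ) (gb : Fin g2 → ℂ) (D : ℕ) (lab : Fin c → ℕ × ℕ) :
    MvPolynomial (Fin m × Fin c) ℂ →ₗ[ℂ] MvPolynomial (Fin (m + 1) × Cols c g1 g2) ℂ :=
  (LinearMap.mulLeft ℂ (RF ga gb D lab)) ∘ₗ (aeval (phiF ga)).toLinearMap

lemma FV_apply (ga : Fin g1 → ℂ) (gb : Fin g2 → ℂ) (D : ℕ) (lab : Fin c → ℕ × ℕ)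
    (v : MvPolynomial (Fin m × Fin c) ℂ) :
    FV ga gb D lab v = RF ga gb D lab * aeval (phiF ga) v := rfl

end Vale.Agent.P181.ST.H775
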