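import Vale.Agent.P181.ST.H775.Prod
import Vale.Agent.P181.ST.H775.FDef

set_option autoImplicit false

/-!
# P181, ST, T2: the leading part of the letters of a polynomial
-/

open MvPolynomial

namespace Vale.Agent.P181.ST.H775

open Vale.Agent.P181.SZR5 (ren ren_X)
open Vale.Agent.P181.DH.H674 (Th Th_monomial cont col Th_mul)

/-- The letter of one unit in row zero. -/
def e0 (m : ℕ) : Fin (m + 1) → ℕ := fun r => if r = 0 then 1 else 0

open scoped Classical in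
/-- No empty letter, the letter `e_0` is one, every other letter is marked with `X`. -/
noncomputable def ph (m : ℕ) (y : Fin (m + 1) → ℕ) :
    Polynomial (MvPolynomial (Fin (m + 1) → ℕ) ℂ) :=
  if y = 0 then 0 else if y = e0 m then 1 else Polynomial.X * Polynomial.C (X y)

lemma e0_ne (m : ℕ) : e0 m ≠ 0 := by
  intro h
  have h1 := congrFun h 0
  simp [e0] at h1

lemma sum_e0 (m : ℕ) : ∑ i, e0 m i = 1 := by
  rw [Finset.sum_eq_single 0]
  · exact if_pos rfl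
  · intro i _ hi
    exact if_neg hi
  · intro h
    exact absurd (Finset.mem_univ _) h

lemma ph_zero (m : ℕ) : ph m 0 = 0 := if_pos rfl

lemma ph_e0 (m : ℕ) : ph m (e0 m) = 1 := by
  rw [ph, if_neg (e0_ne m), if_pos rfl]

lemma ph_big {m : ℕ} {y : Fin (m + 1) → ℕ} (h : y ≠ 0) (h' : y ≠ e0 m) :
    ph m y = Polynomial.X * Polynomial.C (X y) := by
  rw [ph, if_neg h, if_neg h']

lemma X_dvd_ph {m : ℕ} {y : Fin (m + 1) → ℕ} (h : y ≠ e0 m) : Polynomial.X ∣ ph m y := by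
  by_cases h0 : y = 0
  · rw [h0, ph_zero]
    exact dvd_zero _
  · rw [ph_big h0 h]
    exact dvd_mul_right _ _

/-- The algebra map on the letters. -/
noncomputable def Phi (m : ℕ) : MvPolynomial (Fin (m + 1) → ℕ) ℂ →ₐ[ℂ]
    Polynomial (MvPolynomial (Fin (m + 1) → ℕ) ℂ) := aeval (ph m)

/-- The leading part of the letters. -/
noncomputable def PT (m : ℕ) (σ : Type) [Fintype σ] : MvPolynomial (Fin (m + 1) × σ) ℂ →ₗ[ℂ]
    Polynomial (MvPolynomial (Fin (m + 1) → ℕ) ℂ) := (Phi m).toLinearMap ∘ₗ Th (m + 1) σ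

lemma PT_apply {m : ℕ} {σ : Type} [Fintype σ] (f : MvPolynomial (Fin (m + 1) × σ) ℂ) :
    PT m σ f = Phi m (Th (m + 1) σ f) := rfl

lemma PT_monomial {m : ℕ} {σ : Type} [Fintype σ] (u : Fin (m + 1) × σ →₀ ℕ) (r : ℂ) :
    PT m σ (monomial u r) = r • ∏ j, ph m (col u j) := by
  have h1 : (monomial (cont u) r : MvPolynomial (Fin (m + 1) → ℕ) ℂ) =
      r • ∏ j, X (col u j) := by
    have h2 : (monomial (cont u) (1 : ℂ)) = ∏ j, X (col u j) := by
      unfold cont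
      rw [monomial_sum_one]
      rfl
    rw [← h2, smul_monomial, smul_eq_mul, mul_one]
  rw [PT_apply, Th_monomial, h1, map_smul, map_prod]
  congr 1
  exact Finset.prod_congr rfl fun j _ => aeval_X _ _

lemma PT_sum {m : ℕ} {σ : Type} [Fintype σ] (f : MvPolynomial (Fin (m + 1) × σ) ℂ) :
    PT m σ f = ∑ u ∈ f.support, coeff u f • ∏ j, ph m (col u j) := by
  conv_lhs => rw [f.as_sum]
  rw [map_sum]
  exact Finset.sum_congr rfl fun u _ => PT_monomial u _

lemma PT_mul {m : ℕ} {σ τ : Type} [Fintype σ] [Fintype τ]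
    (f : MvPolynomial (Fin (m + 1) × σ) ℂ) (g : MvPolynomial (Fin (m + 1) × τ) ℂ) :
    PT m (σ ⊕ τ) (ren (m + 1) Sum.inl f * ren (m + 1) Sum.inr g) = PT m σ f * PT m τ g := by
  rw [PT_apply, Th_mul, map_mul]
  rfl

lemma PT_prod {m : ℕ} {ι τ : Type} [Fintype ι] [Fintype τ]
    (f : ι → MvPolynomial (Fin (m + 1) × τ) ℂ) :
    PT m (ι × τ) (∏ q, ren (m + 1) (fun t : τ => (q, t)) (f q)) = ∏ q, PT m τ (f q) := by
  rw [PT_apply, Th_prod, map_prod]
  rfl

variable {m c g1 g2 : ℕ}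

/-- In every triple the number of boxes is not three. -/
def Tr3 (f : MvPolynomial (Fin (m + 1) × Cols c g1 g2) ℂ) : Prop :=
  ∀ u, coeff u f ≠ 0 → ∀ q : Fin c, ∑ t : Fin 3, ∑ i, u (i, Sum.inl (q, t)) ≠ 3

lemma dvd_triple {u : Fin (m + 1) × Cols c g1 g2 →₀ ℕ} {q : Fin c}
    (h : ∑ t : Fin 3, ∑ i, u (i, Sum.inl (q, t)) ≠ 3) :
    Polynomial.X ∣ ∏ t : Fin 3, ph m (col u (Sum.inl (q, t))) := by
  by_cases h1 : ∀ t : Fin 3, col u (Sum.inl (q, t)) = e0 m
  · exfalso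
    apply h
    have h2 : ∀ t : Fin 3, ∑ i, u (i, Sum.inl (q, t)) = 1 := by
      intro t
      have h3 : ∀ i, u (i, Sum.inl (q, t)) = e0 m i := fun i => congrFun (h1 t) i
      rw [Finset.sum_congr rfl fun i _ => h3 i, sum_e0]
    rw [Finset.sum_congr rfl fun t _ => h2 t, Finset.sum_const, Finset.card_univ,
      Fintype.card_fin, smul_eq_mul, mul_one]
  · push Not at h1
    obtain ⟨t, ht⟩ := h1
    exact (X_dvd_ph ht).trans (Finset.dvd_prod_of_mem _ (Finset.mem_univ t))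

lemma dvd_triples {u : Fin (m + 1) × Cols c g1 g2 →₀ ℕ}
    (h : ∀ q : Fin c, ∑ t : Fin 3, ∑ i, u (i, Sum.inl (q, t)) ≠ 3) :
    (Polynomial.X : Polynomial (MvPolynomial (Fin (m + 1) → ℕ) ℂ)) ^ c ∣
      ∏ x : Fin c × Fin 3, ph m (col u (Sum.inl x)) := by
  rw [Fintype.prod_prod_type]
  have h1 := Finset.prod_dvd_prod_of_dvd (fun _ : Fin c =>
    (Polynomial.X : Polynomial (MvPolynomial (Fin (m + 1) → ℕ) ℂ)))
    (fun q => ∏ t : Fin 3, ph m (col u (Sum.inl (q, t)))) (s := Finset.univ)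
    fun q _ => dvd_triple (h q)
  rwa [Finset.prod_const, Finset.card_univ, Fintype.card_fin] at h1

lemma dvd_PT {f : MvPolynomial (Fin (m + 1) × Cols c g1 g2) ℂ} (hf : Tr3 f) :
    (Polynomial.X : Polynomial (MvPolynomial (Fin (m + 1) → ℕ) ℂ)) ^ c ∣
      PT m (Cols c g1 g2) f := by
  rw [PT_sum]
  refine Finset.dvd_sum fun u hu => ?_
  rw [Algebra.smul_def]
  apply Dvd.dvd.mul_left
  rw [Fintype.prod_sum_type]
  exact (dvd_triples (hf u (mem_support_iff.1 hu))).mul_right _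

/-- The variables of the lower rows in the first group. -/
def Bad (p : Fin (m + 1) × Cols c g1 g2) : Prop :=
  ∃ (k : Fin m) (x : Fin g1), p = (k.succ, Sum.inr (Sum.inl x))

open scoped Classical in
/-- The lower rows of the first group are zero. -/
noncomputable def rho : MvPolynomial (Fin (m + 1) × Cols c g1 g2) ℂ →ₐ[ℂ]
    MvPolynomial (Fin (m + 1) × Cols c g1 g2) ℂ := aeval fun p => if Bad p then 0 else X p

lemma rho_monomial_good {u : Fin (m + 1) × Cols c g1 g2 →₀ ℕ} (r : ℂ)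
    (h : ∀ p, Bad p → u p = 0) : rho (monomial u r) = monomial u r := by
  classical
  rw [rho, aeval_monomial, monomial_eq, Finsupp.prod_fintype _ _ (fun _ => pow_zero _),
    Finsupp.prod_fintype _ _ (fun _ => pow_zero _)]
  congr 1
  refine Finset.prod_congr rfl fun p _ => ?_
  by_cases hp : Bad p
  · rw [h p hp, pow_zero, pow_zero]
  · rw [if_neg hp]

lemma rho_monomial_bad {u : Fin (m + 1) × Cols c g1 g2 →₀ ℕ} (r : ℂ)
    {p : Fin (m + 1) × Cols c g1 g2} (hp : Bad p) (h : u p ≠ 0) : rho (monomial u r) = 0 := by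
  classical
  rw [rho, aeval_monomial, Finsupp.prod_fintype _ _ (fun _ => pow_zero _),
    Finset.prod_eq_zero (Finset.mem_univ p), mul_zero]
  rw [if_pos hp, zero_pow h]

lemma dvd_bad {u : Fin (m + 1) × Cols c g1 g2 →₀ ℕ}
    (h : ∀ q : Fin c, ∑ t : Fin 3, ∑ i, u (i, Sum.inl (q, t)) ≠ 3) {x : Fin g1}
    (h1 : col u (Sum.inr (Sum.inl x)) ≠ e0 m) (r : ℂ) :
    (Polynomial.X : Polynomial (MvPolynomial (Fin (m + 1) → ℕ) ℂ)) ^ (c + 1) ∣
      r • ∏ j, ph m (col u j) := by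
  have h2 : (Polynomial.X : Polynomial (MvPolynomial (Fin (m + 1) → ℕ) ℂ)) ∣
      ∏ x : Fin g1, ph m (col u (Sum.inr (Sum.inl x))) :=
    (X_dvd_ph h1).trans (Finset.dvd_prod_of_mem
      (fun x : Fin g1 => ph m (col u (Sum.inr (Sum.inl x)))) (Finset.mem_univ x))
  have h3 := mul_dvd_mul (dvd_triples h) (Dvd.dvd.mul_right h2
    (∏ x : Fin g2, ph m (col u (Sum.inr (Sum.inr x)))))
  rw [← pow_succ] at h3
  rw [Algebra.smul_def, Fintype.prod_sum_type, Fintype.prod_sum_type]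
  exact Dvd.dvd.mul_left h3 _

/-- The lower rows of the first group do not matter for the leading part. -/
lemma coeff_PT_rho {f : MvPolynomial (Fin (m + 1) × Cols c g1 g2) ℂ} (hf : Tr3 f) :
    (PT m (Cols c g1 g2) f).coeff c = (PT m (Cols c g1 g2) (rho f)).coeff c := by
  classical
  conv_lhs => rw [f.as_sum]
  conv_rhs => rw [f.as_sum]
  rw [map_sum, map_sum, map_sum, Polynomial.finsetSum_coeff, Polynomial.finsetSum_coeff]
  refine Finset.sum_congr rfl fun u hu => ?_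
  by_cases h : ∀ p, Bad p → u p = 0
  · rw [rho_monomial_good _ h]
  · push Not at h
    obtain ⟨p, hp, hup⟩ := h
    rw [rho_monomial_bad _ hp hup, map_zero, Polynomial.coeff_zero, PT_monomial]
    obtain ⟨k, x, rfl⟩ := hp
    have h1 : col u (Sum.inr (Sum.inl x)) ≠ e0 m := by
      intro h2
      have h3 := congrFun h2 k.succ
      apply hup
      change u (k.succ, Sum.inr (Sum.inl x)) = e0 m k.succ at h3
      rw [h3, e0, if_neg (Fin.succ_ne_zero k)]
    exact Polynomial.X_pow_dvd_iff.1 (dvd_bad (hf u (mem_support_iff.1 hu)) h1 _) c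
      (Nat.lt_succ_self c)

lemma coeff_PT_of_lt {f : MvPolynomial (Fin (m + 1) × Cols c g1 g2) ℂ} (hf : Tr3 f) {d : ℕ}
    (hd : d < c) : (PT m (Cols c g1 g2) f).coeff d = 0 :=
  Polynomial.X_pow_dvd_iff.1 (dvd_PT hf) d hd

lemma rho_lf_good {σ : Type} [Fintype σ] (φ : σ → Cols c g1 g2) (k : σ → ℂ) (r : Fin (m + 1))
    (h : ∀ x, ¬ Bad (r, φ x)) : rho (ren (m + 1) φ (lf k r)) = ren (m + 1) φ (lf k r) := by
  classical
  unfold lf
  rw [map_sum, map_sum]
  refine Finset.sum_congr rfl fun x _ => ?_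
  have h1 : ren (m + 1) φ (C (k x)) = C (k x) := rename_C _ _
  rw [map_mul, h1, ren_X, map_mul]
  congr 1
  · exact aeval_C _ _
  · rw [rho, aeval_X, if_neg (h x)]

lemma rho_lf_bad {σ : Type} [Fintype σ] (φ : σ → Cols c g1 g2) (k : σ → ℂ) (r : Fin (m + 1))
    (h : ∀ x, Bad (r, φ x)) : rho (ren (m + 1) φ (lf k r)) = 0 := by
  classical
  unfold lf
  rw [map_sum, map_sum]
  refine Finset.sum_eq_zero fun x _ => ?_
  have h1 : ren (m + 1) φ (C (k x)) = C (k x) := rename_C _ _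
  rw [map_mul, h1, ren_X, map_mul]
  have h2 : rho (X (r, φ x) : MvPolynomial (Fin (m + 1) × Cols c g1 g2) ℂ) = 0 := by
    rw [rho, aeval_X, if_pos (h x)]
  rw [h2, mul_zero]

lemma rho_ZF0 (ga : Fin g1 → ℂ) : rho (ZF (m := m) (c := c) (g2 := g2) ga 0) = ZF ga 0 := by
  apply rho_lf_good
  rintro x ⟨k, y, h⟩
  exact Fin.succ_ne_zero k (Prod.mk.inj h).1.symm

lemma rho_ZFs (ga : Fin g1 → ℂ) (k : Fin m) :
    rho (ZF (c := c) (g2 := g2) ga k.succ) = 0 := by
  apply rho_lf_bad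
  exact fun x => ⟨k, x, rfl⟩

lemma rho_ZG (gb : Fin g2 → ℂ) (r : Fin (m + 1)) :
    rho (ZG (c := c) (g1 := g1) gb r) = ZG gb r := by
  apply rho_lf_good
  rintro x ⟨k, y, h⟩
  have h1 := (Prod.mk.inj h).2
  simp at h1

lemma rho_AF (q : Fin c) (r : Fin (m + 1)) : rho (AF (g1 := g1) (g2 := g2) q r) = AF q r := by
  apply rho_lf_good
  rintro x ⟨k, y, h⟩
  have h1 := (Prod.mk.inj h).2
  simp at h1

lemma rho_CF (q : Fin c) (r : Fin (m + 1)) : rho (CF (g1 := g1) (g2 := g2) q r) = CF q r := by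
  apply rho_lf_good
  rintro x ⟨k, y, h⟩
  have h1 := (Prod.mk.inj h).2
  simp at h1

/-- The polynomial of one triple. -/
noncomputable def TP (m i : ℕ) (w : Fin m → ℕ) : MvPolynomial (Fin (m + 1) × Fin 3) ℂ :=
  lf kA 0 ^ 2 * lf kC 0 ^ i * ∏ k : Fin m, lf kC k.succ ^ w k

/-- `F_v` without the lower rows of the first group. -/
lemma rho_FV {ga : Fin g1 → ℂ} {gb : Fin g2 → ℂ} {D : ℕ} {lab : Fin c → ℕ × ℕ} (hD : D ≤ g1)
    {v : MvPolynomial (Fin m × Fin c) ℂ} (hv : ∀ u, coeff u v ≠ 0 → ∑ p, u p = D) :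
    rho (FV ga gb D lab v) = ∑ u ∈ v.support, coeff u v •
      (ren (m + 1) Sum.inl (∏ q, ren (m + 1) (fun t : Fin 3 => (q, t))
          (TP m (lab q).1 fun k => u (k, q))) *
        ren (m + 1) Sum.inr (ren (m + 1) Sum.inl (lf ga 0 ^ g1) *
          ren (m + 1) Sum.inr (lf gb 0 ^ g2))) := by
  classical
  have h1 : ∀ p : Fin m × Fin c, rho (phiF (g2 := g2) ga p) = ZF ga 0 * CF p.2 p.1.succ := by
    intro p
    unfold phiF
    rw [map_sub, map_mul, map_mul, rho_ZF0, rho_CF, rho_ZFs, zero_mul, sub_zero]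
  have h2 : rho (RF (m := m) ga gb D lab) = RF ga gb D lab := by
    unfold RF
    rw [map_mul, map_mul, map_pow, map_pow, map_prod, rho_ZF0, rho_ZG]
    congr 1
    refine Finset.prod_congr rfl fun q _ => ?_
    rw [map_mul, map_pow, map_pow, rho_AF, rho_CF]
  rw [FV_apply, map_mul, h2]
  have h3 : rho (aeval (phiF (g2 := g2) ga) v) =
      ∑ u ∈ v.support, C (coeff u v) * ∏ p : Fin m × Fin c, (ZF ga 0 * CF p.2 p.1.succ) ^ u p := by
    conv_lhs => rw [v.as_sum]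
    rw [map_sum, map_sum]
    refine Finset.sum_congr rfl fun u _ => ?_
    rw [aeval_monomial, map_mul, Finsupp.prod_fintype _ _ (fun _ => pow_zero _), map_prod]
    congr 1
    · exact aeval_C _ _
    · refine Finset.prod_congr rfl fun p _ => ?_
      rw [map_pow, h1]
  rw [h3, Finset.mul_sum]
  refine Finset.sum_congr rfl fun u hu => ?_
  have h4 := hv u (mem_support_iff.1 hu)
  have h5 : ∏ p : Fin m × Fin c, (ZF (m := m) (g2 := g2) ga 0 * CF p.2 p.1.succ) ^ u p =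
      ZF ga 0 ^ D * ∏ q, ∏ k, CF q k.succ ^ u (k, q) := by
    simp only [mul_pow]
    rw [Finset.prod_mul_distrib, Finset.prod_pow_eq_pow_sum, h4, Fintype.prod_prod_type_right]
  have h6 : ∀ (q : Fin c) (k : Fin 3 → ℂ) (r : Fin (m + 1)),
      ren (m + 1) (Sum.inl : Fin c × Fin 3 → Cols c g1 g2)
        (ren (m + 1) (fun t : Fin 3 => (q, t)) (lf k r)) =
      ren (m + 1) (fun t : Fin 3 => (Sum.inl (q, t) : Cols c g1 g2)) (lf k r) := by
    intro q k r
    unfold ren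
    rw [rename_rename]
    rfl
  have h7 : ren (m + 1) (Sum.inl : Fin c × Fin 3 → Cols c g1 g2)
      (∏ q, ren (m + 1) (fun t : Fin 3 => (q, t)) (TP m (lab q).1 fun k => u (k, q))) =
      (∏ q, (AF q 0 ^ 2 * CF q 0 ^ (lab q).1)) * ∏ q, ∏ k, CF q k.succ ^ u (k, q) := by
    rw [map_prod, ← Finset.prod_mul_distrib]
    refine Finset.prod_congr rfl fun q _ => ?_
    unfold TP AF CF
    simp only [map_mul, map_pow, map_prod, h6]
  have h8 : ren (m + 1) (Sum.inr : Fin g1 ⊕ Fin g2 → Cols c g1 g2)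
      (ren (m + 1) Sum.inl (lf ga 0 ^ g1) * ren (m + 1) Sum.inr (lf gb 0 ^ g2)) =
      ZF ga 0 ^ g1 * ZG gb 0 ^ g2 := by
    unfold ZF ZG ren
    rw [map_mul, map_pow, map_pow, map_pow, map_pow, rename_rename, rename_rename]
    rfl
  have h9 : (ZF (m := m) (c := c) (g2 := g2) ga 0) ^ g1 = ZF ga 0 ^ (g1 - D) * ZF ga 0 ^ D := by
    rw [← pow_add, Nat.sub_add_cancel hD]
  rw [h7, h8, h5, h9, smul_eq_C_mul, RF]
  ring

/-- The leading part of `F_v` as a product. -/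
lemma PT_rho_FV {ga : Fin g1 → ℂ} {gb : Fin g2 → ℂ} {D : ℕ} {lab : Fin c → ℕ × ℕ} (hD : D ≤ g1)
    {v : MvPolynomial (Fin m × Fin c) ℂ} (hv : ∀ u, coeff u v ≠ 0 → ∑ p, u p = D) :
    PT m (Cols c g1 g2) (rho (FV ga gb D lab v)) = ∑ u ∈ v.support, coeff u v •
      ((∏ q, PT m (Fin 3) (TP m (lab q).1 fun k => u (k, q))) *
        (PT m (Fin g1) (lf ga 0 ^ g1) * PT m (Fin g2) (lf gb 0 ^ g2))) := by
  rw [rho_FV hD hv, map_sum]
  refine Finset.sum_congr rfl fun u _ => ?_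
  rw [map_smul, PT_mul, PT_mul, PT_prod]

end Vale.Agent.P181.ST.H775
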