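import Vale.Agent.P181.ST.H775.TriP
import Vale.Agent.P181.ST.H607.End

set_option autoImplicit false

/-!
# P181, ST, T2: the plug
-/

open MvPolynomial

namespace Vale.Agent.P181.ST.H775

theorem topStmt_of (hT : TriStmt) : H607.TopStmt := by
  intro m c g1 g2 ga gb lab nu v hv hD hl
  obtain ⟨h1, h2⟩ := top (ga := ga) (gb := gb) hT hv hD hl
  refine ⟨h1, h2.trans ?_⟩
  have h3 : hat m c lab v = H607.hat lab v := rfl
  rw [h3]
  simp only [map_mul]

/-- **(T2)** -/
theorem lowG : LowG := H607.lowG_of (topStmt_of tri)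

end Vale.Agent.P181.ST.H775
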