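import Vale.Agent.P181.DH.H674.Star

set_option autoImplicit false

/-!
# P181, ST, T2a: the letters of a product over disjoint groups of columns
-/

open MvPolynomial

namespace Vale.Agent.P181.ST.H775

open Vale.Agent.P181.SZR5 (ren)
open Vale.Agent.P181.DH.H674 (Th Th_monomial cont col map_at pinj)

variable {m : ℕ}

lemma cont_prod {ι τ : Type} [Fintype ι] [Fintype τ] (v : ι → (Fin m × τ →₀ ℕ)) :
    cont (∑ q, (v q).mapDomain (fun p : Fin m × τ => (p.1, (q, p.2)))) = ∑ q, cont (v q) := by
  classical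
  unfold cont
  rw [Fintype.sum_prod_type]
  refine Finset.sum_congr rfl fun q _ => Finset.sum_congr rfl fun t _ => ?_
  congr 1
  funext i
  unfold col
  rw [Finsupp.finsetSum_apply, Finset.sum_eq_single q]
  · exact map_at (e := fun t : τ => (q, t)) (fun a b h => (Prod.mk.inj h).2) (v q) i t
  · intro q' _ hq
    apply Finsupp.mapDomain_of_notMem_range
    rintro ⟨p, hp⟩
    exact hq (Prod.mk.inj (Prod.mk.inj hp).2).1
  · intro h
    exact absurd (Finset.mem_univ _) h

/-- **(T2a)** -/
theorem Th_prod {ι τ : Type} [Fintype ι] [Fintype τ] (f : ι → MvPolynomial (Fin m × τ) ℂ) :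
    Th m (ι × τ) (∏ q, ren m (fun t : τ => (q, t)) (f q)) = ∏ q, Th m τ (f q) := by
  classical
  let M1 : MultilinearMap ℂ (fun _ : ι => MvPolynomial (Fin m × τ) ℂ)
      (MvPolynomial (Fin m → ℕ) ℂ) :=
    (Th m (ι × τ)).compMultilinearMap
      ((MultilinearMap.mkPiAlgebra ℂ ι (MvPolynomial (Fin m × (ι × τ)) ℂ)).compLinearMap
        (fun q => (ren m (fun t : τ => (q, t))).toLinearMap))
  let M2 : MultilinearMap ℂ (fun _ : ι => MvPolynomial (Fin m × τ) ℂ)
      (MvPolynomial (Fin m → ℕ) ℂ) :=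
    (MultilinearMap.mkPiAlgebra ℂ ι (MvPolynomial (Fin m → ℕ) ℂ)).compLinearMap
      (fun _ => Th m τ)
  have h : M1 = M2 := by
    refine Module.Basis.ext_multilinear (fun _ => basisMonomials (Fin m × τ) ℂ) fun v => ?_
    change Th m (ι × τ) (∏ q, ren m (fun t : τ => (q, t)) (basisMonomials (Fin m × τ) ℂ (v q))) =
      ∏ q, Th m τ (basisMonomials (Fin m × τ) ℂ (v q))
    simp only [coe_basisMonomials]
    have h1 : ∀ q, ren m (fun t : τ => (q, t)) (monomial (v q) (1 : ℂ)) =
        monomial ((v q).mapDomain (fun p : Fin m × τ => (p.1, (q, p.2)))) 1 := fun q =>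
      rename_monomial _ _ _
    rw [Finset.prod_congr rfl fun q _ => h1 q, ← monomial_sum_one, Th_monomial, cont_prod,
      monomial_sum_one]
    exact Finset.prod_congr rfl fun q _ => (Th_monomial _ _).symm
  exact congrArg (fun M => M f) h

end Vale.Agent.P181.ST.H775
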