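import Vale.Agent.P181.ST.H775.Phi
import Vale.Agent.P181.ST.H775.Mem
import Vale.Agent.P181.ST.H607.Psi
import Vale.Agent.P181.ST.H607.Tri

set_option autoImplicit false

/-!
# P181, ST, T2c and the top coefficient of the letters of `F_v`
-/

open MvPolynomial

namespace Vale.Agent.P181.ST.H775

open Vale.Agent.P181.SZR5 (ren ren_X)
open Vale.Agent.P181.DH.H674 (Th Th_monomial cont col Th_mul)
open Vale.Agent.P181.ST.H607 (th Psi th_e0 th_small th_big Psi_Th_monomial kap)

variable {m c g1 g2 : ℕ}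

/-- The letters after `Psi`. -/
noncomputable def QT (m : ℕ) (σ : Type) [Fintype σ] : MvPolynomial (Fin (m + 1) × σ) ℂ →ₗ[ℂ]
    Polynomial (MvPolynomial (Fin (m + 1) → ℕ) ℂ) := (Psi m).toLinearMap ∘ₗ Th (m + 1) σ

lemma QT_apply {σ : Type} [Fintype σ] (f : MvPolynomial (Fin (m + 1) × σ) ℂ) :
    QT m σ f = Psi m (Th (m + 1) σ f) := rfl

lemma QT_monomial {σ : Type} [Fintype σ] (u : Fin (m + 1) × σ →₀ ℕ) (r : ℂ) :
    QT m σ (monomial u r) = Polynomial.C (C r) * ∏ j, th m (col u j) := Psi_Th_monomial u r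

lemma deg_th_le (y : Fin (m + 1) → ℕ) : (th m y).natDegree ≤ 1 := by
  unfold th
  split_ifs
  · exact Polynomial.natDegree_X_le
  · simp
  · simp

lemma deg_th_ne {y : Fin (m + 1) → ℕ} (h : y ≠ Pi.single 0 1) : (th m y).natDegree = 0 := by
  unfold th
  rw [if_neg h]
  split_ifs
  · simp
  · simp

lemma deg_prod_le {σ : Type} [Fintype σ] (f : σ → (Fin (m + 1) → ℕ)) :
    (∏ j, th m (f j)).natDegree ≤ Fintype.card σ := by
  refine (Polynomial.natDegree_prod_le _ _).trans ?_
  refine (Finset.sum_le_sum fun j _ => deg_th_le (f j)).trans ?_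
  rw [Finset.sum_const, Finset.card_univ, smul_eq_mul, mul_one]

lemma deg_prod_lt {σ : Type} [Fintype σ] (f : σ → (Fin (m + 1) → ℕ)) {x : σ}
    (hx : f x ≠ Pi.single 0 1) : (∏ j, th m (f j)).natDegree + 1 ≤ Fintype.card σ := by
  classical
  have h1 := Polynomial.natDegree_prod_le (Finset.univ : Finset σ) fun j => th m (f j)
  have h2 : ∑ j, (th m (f j)).natDegree + 1 ≤ Fintype.card σ := by
    rw [← Finset.add_sum_erase _ _ (Finset.mem_univ x), deg_th_ne hx, zero_add]
    have h3 : ∑ j ∈ Finset.univ.erase x, (th m (f j)).natDegree ≤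
        (Finset.univ.erase x).card := by
      refine (Finset.sum_le_sum fun j _ => deg_th_le (f j)).trans ?_
      rw [Finset.sum_const, smul_eq_mul, mul_one]
    have h4 := Finset.card_erase_add_one (Finset.mem_univ x)
    rw [Finset.card_univ] at h4
    omega
  omega

lemma deg_C_mul (r : ℂ) (p : Polynomial (MvPolynomial (Fin (m + 1) → ℕ) ℂ)) :
    (Polynomial.C (C r) * p).natDegree ≤ p.natDegree :=
  Polynomial.natDegree_C_mul_le _ _

lemma sum_single0 (m : ℕ) : ∑ i : Fin (m + 1), (Pi.single 0 1 : Fin (m + 1) → ℕ) i = 1 := by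
  rw [Finset.sum_pi_single']
  simp

lemma deg_triple {u : Fin (m + 1) × Cols c g1 g2 →₀ ℕ} {q : Fin c}
    (h : ∑ t : Fin 3, ∑ i, u (i, Sum.inl (q, t)) ≠ 3) :
    (∏ t : Fin 3, th m (col u (Sum.inl (q, t)))).natDegree ≤ 2 := by
  by_cases h1 : ∀ t : Fin 3, col u (Sum.inl (q, t)) = Pi.single 0 1
  · exfalso
    apply h
    have h2 : ∀ t : Fin 3, ∑ i, u (i, Sum.inl (q, t)) = 1 := by
      intro t
      have h3 : ∀ i, u (i, Sum.inl (q, t)) = (Pi.single 0 1 : Fin (m + 1) → ℕ) i :=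
        fun i => congrFun (h1 t) i
      rw [Finset.sum_congr rfl fun i _ => h3 i, sum_single0]
    rw [Finset.sum_congr rfl fun t _ => h2 t, Finset.sum_const, Finset.card_univ,
      Fintype.card_fin, smul_eq_mul, mul_one]
  · push Not at h1
    obtain ⟨t, ht⟩ := h1
    have h2 := deg_prod_lt (fun t : Fin 3 => col u (Sum.inl (q, t))) ht
    rw [Fintype.card_fin] at h2
    omega

lemma deg_triples {u : Fin (m + 1) × Cols c g1 g2 →₀ ℕ}
    (h : ∀ q : Fin c, ∑ t : Fin 3, ∑ i, u (i, Sum.inl (q, t)) ≠ 3) :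
    (∏ x : Fin c × Fin 3, th m (col u (Sum.inl x))).natDegree ≤ 2 * c := by
  rw [Fintype.prod_prod_type]
  refine (Polynomial.natDegree_prod_le _ _).trans ?_
  refine (Finset.sum_le_sum fun q _ => deg_triple (h q)).trans ?_
  rw [Finset.sum_const, Finset.card_univ, smul_eq_mul, Fintype.card_fin, mul_comm]

lemma deg_QT_monomial {u : Fin (m + 1) × Cols c g1 g2 →₀ ℕ} (r : ℂ)
    (h : ∀ q : Fin c, ∑ t : Fin 3, ∑ i, u (i, Sum.inl (q, t)) ≠ 3) :
    (QT m (Cols c g1 g2) (monomial u r)).natDegree ≤ g1 + g2 + 2 * c := by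
  rw [QT_monomial]
  refine (deg_C_mul _ _).trans ?_
  rw [Fintype.prod_sum_type, Fintype.prod_sum_type]
  have h1 := deg_triples h
  have h2 := deg_prod_le (fun x : Fin g1 => col u (Sum.inr (Sum.inl x)))
  have h3 := deg_prod_le (fun x : Fin g2 => col u (Sum.inr (Sum.inr x)))
  rw [Fintype.card_fin] at h2 h3
  refine Polynomial.natDegree_mul_le.trans ?_
  refine (Nat.add_le_add h1 (Polynomial.natDegree_mul_le.trans (Nat.add_le_add h2 h3))).trans ?_
  omega

lemma deg_QT_bad {u : Fin (m + 1) × Cols c g1 g2 →₀ ℕ} (r : ℂ)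
    (h : ∀ q : Fin c, ∑ t : Fin 3, ∑ i, u (i, Sum.inl (q, t)) ≠ 3) {x : Fin g1}
    (hx : col u (Sum.inr (Sum.inl x)) ≠ Pi.single 0 1) :
    (QT m (Cols c g1 g2) (monomial u r)).natDegree < g1 + g2 + 2 * c := by
  rw [QT_monomial]
  refine (deg_C_mul _ _).trans_lt ?_
  rw [Fintype.prod_sum_type, Fintype.prod_sum_type]
  have h1 := deg_triples h
  have h2 := deg_prod_lt (fun x : Fin g1 => col u (Sum.inr (Sum.inl x))) hx
  have h3 := deg_prod_le (fun x : Fin g2 => col u (Sum.inr (Sum.inr x)))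
  rw [Fintype.card_fin] at h2 h3
  refine Polynomial.natDegree_mul_le.trans_lt ?_
  refine (Nat.add_le_add h1 (Polynomial.natDegree_mul_le.trans
    (Nat.add_le_add (Nat.le_sub_of_add_le h2) h3))).trans_lt ?_
  omega

/-- The degree of the letters. -/
lemma deg_QT {f : MvPolynomial (Fin (m + 1) × Cols c g1 g2) ℂ} (hf : Tr3 f) :
    (QT m (Cols c g1 g2) f).natDegree ≤ g1 + g2 + 2 * c := by
  conv_lhs => rw [f.as_sum]
  rw [map_sum]
  exact Polynomial.natDegree_sum_le_of_forall_le _ _ fun u hu =>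
    deg_QT_monomial _ (hf u (mem_support_iff.1 hu))

/-- The lower rows of the first group do not matter for the top coefficient. -/
lemma coeff_QT_rho {f : MvPolynomial (Fin (m + 1) × Cols c g1 g2) ℂ} (hf : Tr3 f) :
    (QT m (Cols c g1 g2) f).coeff (g1 + g2 + 2 * c) =
      (QT m (Cols c g1 g2) (rho f)).coeff (g1 + g2 + 2 * c) := by
  classical
  conv_lhs => rw [f.as_sum]
  conv_rhs => rw [f.as_sum]
  rw [map_sum, map_sum, map_sum, Polynomial.finsetSum_coeff, Polynomial.finsetSum_coeff]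
  refine Finset.sum_congr rfl fun u hu => ?_
  by_cases h : ∀ p, Bad p → u p = 0
  · rw [rho_monomial_good _ h]
  · push Not at h
    obtain ⟨p, hp, hup⟩ := h
    rw [rho_monomial_bad _ hp hup, map_zero, Polynomial.coeff_zero]
    obtain ⟨k, x, rfl⟩ := hp
    have h1 : col u (Sum.inr (Sum.inl x)) ≠ Pi.single 0 1 := by
      intro h2
      have h3 := congrFun h2 k.succ
      apply hup
      change u (k.succ, Sum.inr (Sum.inl x)) = (Pi.single 0 1 : Fin (m + 1) → ℕ) k.succ at h3
      rw [h3, Pi.single_eq_of_ne (Fin.succ_ne_zero k)]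
    exact Polynomial.coeff_eq_zero_of_natDegree_lt
      (deg_QT_bad _ (hf u (mem_support_iff.1 hu)) h1)

/-! ### The groups -/

/-- **(T2c)** the degree. -/
lemma deg_group_QT {g : ℕ} (f : MvPolynomial (Fin (m + 1) × Fin g) ℂ) :
    (QT m (Fin g) f).natDegree ≤ g := by
  conv_lhs => rw [f.as_sum]
  rw [map_sum]
  refine Polynomial.natDegree_sum_le_of_forall_le _ _ fun u hu => ?_
  rw [QT_monomial]
  refine (deg_C_mul _ _).trans ?_
  have h := deg_prod_le (fun j : Fin g => col u j)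
  rwa [Fintype.card_fin] at h

/-- **(T2c)** the top coefficient. -/
lemma coeff_group_QT {g : ℕ} (ga : Fin g → ℂ) :
    (QT m (Fin g) (lf ga 0 ^ g)).coeff g = C ((g.factorial : ℂ) * ∏ p, ga p) := by
  classical
  have h1 : (lf ga (0 : Fin (m + 1)) ^ g : MvPolynomial (Fin (m + 1) × Fin g) ℂ) =
      ∑ k ∈ Finset.piAntidiag (Finset.univ : Finset (Fin g)) g,
        (Nat.multinomial Finset.univ k : MvPolynomial (Fin (m + 1) × Fin g) ℂ) *
          ∏ p, (C (ga p) * X (0, p)) ^ k p := by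
    rw [lf, Finset.sum_pow_eq_sum_piAntidiag]
  have h2 : ∀ k : Fin g → ℕ, (Nat.multinomial Finset.univ k : MvPolynomial
      (Fin (m + 1) × Fin g) ℂ) * ∏ p, (C (ga p) * X (0, p)) ^ k p =
      monomial (∑ p, Finsupp.single ((0 : Fin (m + 1)), p) (k p))
        ((Nat.multinomial Finset.univ k : ℂ) * ∏ p, ga p ^ k p) := by
    intro k
    have e1 : ∀ p, ((C (ga p) * X (0, p)) ^ k p : MvPolynomial (Fin (m + 1) × Fin g) ℂ) =
        C (ga p ^ k p) * monomial (Finsupp.single ((0 : Fin (m + 1)), p) (k p)) 1 := by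
      intro p
      rw [mul_pow, X_pow_eq_monomial, map_pow]
    rw [Finset.prod_congr rfl fun p _ => e1 p, Finset.prod_mul_distrib, ← map_prod,
      ← monomial_sum_one]
    have e2 : (Nat.multinomial Finset.univ k : MvPolynomial (Fin (m + 1) × Fin g) ℂ) =
        C (Nat.multinomial Finset.univ k : ℂ) := (map_natCast C _).symm
    rw [e2, ← mul_assoc, ← map_mul, C_mul_monomial, mul_one]
  have hcol : ∀ (k : Fin g → ℕ) (p : Fin g),
      col (∑ p, Finsupp.single ((0 : Fin (m + 1)), p) (k p)) p = Pi.single 0 (k p) := by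
    intro k p
    funext i
    unfold col
    rw [Finsupp.finsetSum_apply, Finset.sum_eq_single p]
    · by_cases hi : i = 0
      · subst hi
        rw [Finsupp.single_eq_same, Pi.single_eq_same]
      · rw [Pi.single_eq_of_ne hi, Finsupp.single_apply,
          if_neg (fun h => hi (Prod.mk.inj h).1.symm)]
    · intro q _ hq
      rw [Finsupp.single_apply, if_neg (fun h => hq (Prod.mk.inj h).2)]
    · intro h
      exact absurd (Finset.mem_univ _) h
  rw [h1, map_sum, Polynomial.finsetSum_coeff, Finset.sum_eq_single (fun _ => 1)]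
  · rw [h2, QT_monomial, Polynomial.coeff_C_mul]
    have h3 : ∀ p : Fin g, th m (col (∑ p, Finsupp.single ((0 : Fin (m + 1)), p) 1) p) =
        Polynomial.X := by
      intro p
      rw [hcol (fun _ => 1) p, th_e0]
    rw [Finset.prod_congr rfl fun p _ => h3 p, Finset.prod_const, Finset.card_univ,
      Fintype.card_fin, Polynomial.coeff_X_pow_self, mul_one]
    have h4 : Nat.multinomial (Finset.univ : Finset (Fin g)) (fun _ => 1) = g.factorial := by
      unfold Nat.multinomial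
      simp
    rw [h4]
    simp
  · intro k hk hk1
    rw [h2, QT_monomial]
    apply Polynomial.coeff_eq_zero_of_natDegree_lt
    refine (deg_C_mul _ _).trans_lt ?_
    obtain ⟨p, hp⟩ : ∃ p, k p ≠ 1 := by
      by_contra hcon
      push Not at hcon
      exact hk1 (funext hcon)
    have h3 := deg_prod_lt (m := m) (fun j : Fin g =>
      col (∑ p, Finsupp.single ((0 : Fin (m + 1)), p) (k p)) j) (x := p) (by
        rw [hcol]
        intro h
        apply hp
        have := congrFun h 0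
        rwa [Pi.single_eq_same, Pi.single_eq_same] at this)
    rw [Fintype.card_fin] at h3
    omega
  · intro h
    exfalso
    apply h
    rw [Finset.mem_piAntidiag]
    exact ⟨by simp, fun p _ => Finset.mem_univ p⟩

/-! ### The top coefficient -/

/-- `v` with the row-zero factors. -/
noncomputable def hat (m c : ℕ) (lab : Fin c → ℕ × ℕ) (v : MvPolynomial (Fin m × Fin c) ℂ) :
    MvPolynomial (Fin (m + 1) × Fin c) ℂ :=
  (∏ q, X (0, q) ^ (lab q).1) * rename (fun p : Fin m × Fin c => (p.1.succ, p.2)) v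

lemma Tr3_FV {ga : Fin g1 → ℂ} {gb : Fin g2 → ℂ} {lab : Fin c → ℕ × ℕ} {nu : Fin m → ℕ}
    {v : MvPolynomial (Fin m × Fin c) ℂ} (hv : v ∈ GP m (Fin c) lab nu)
    (hD : ∑ i, nu i ≤ g1) (hl : ∀ q, 2 ≤ (lab q).1 + (lab q).2) :
    Tr3 (FV ga gb (∑ i, nu i) lab v) := by
  classical
  intro u hu q
  have h1 := deg_group hv hD (Sum.inl q) hu
  have h2 : (∑ j : Cols c g1 g2, ∑ i, if gr j = Sum.inl q then u (i, j) else 0) =
      ∑ t : Fin 3, ∑ i, u (i, Sum.inl (q, t)) := by
    rw [Fintype.sum_sum_type, Fintype.sum_prod_type, Finset.sum_eq_single q]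
    · have e1 : ∑ x : Fin g1 ⊕ Fin g2, (∑ i, if gr (c := c) (Sum.inr x) = Sum.inl q then
          u (i, Sum.inr x) else 0) = 0 := by
        refine Finset.sum_eq_zero fun x _ => Finset.sum_eq_zero fun i _ => ?_
        rw [if_neg]
        rcases x with x | x <;> exact Sum.inr_ne_inl
      rw [e1, add_zero]
      exact Finset.sum_congr rfl fun t _ => Finset.sum_congr rfl fun i _ => if_pos rfl
    · intro q' _ hq
      refine Finset.sum_eq_zero fun t _ => Finset.sum_eq_zero fun i _ => ?_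
      rw [if_neg]
      intro h
      exact hq (Sum.inl.inj h)
    · intro h
      exact absurd (Finset.mem_univ _) h
  rw [h2] at h1
  rw [h1]
  change 2 + (lab q).1 + (lab q).2 ≠ 3
  have := hl q
  omega

lemma Th_hat (lab : Fin c → ℕ × ℕ) (v : MvPolynomial (Fin m × Fin c) ℂ) :
    Th (m + 1) (Fin c) (hat m c lab v) = ∑ u ∈ v.support, coeff u v •
      ∏ q, X (Fin.cons (lab q).1 (fun k => u (k, q)) : Fin (m + 1) → ℕ) := by
  classical
  have hinj : Function.Injective (fun p : Fin m × Fin c => ((p.1.succ : Fin (m + 1)), p.2)) := by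
    rintro ⟨a, b⟩ ⟨a', b'⟩ h
    have h1 := Fin.succ_injective _ (Prod.mk.inj h).1
    have h2 := (Prod.mk.inj h).2
    exact Prod.ext h1 h2
  unfold hat
  conv_lhs => rw [v.as_sum]
  rw [map_sum, Finset.mul_sum, map_sum]
  refine Finset.sum_congr rfl fun u _ => ?_
  have h1 : (∏ q, X ((0 : Fin (m + 1)), q) ^ (lab q).1 : MvPolynomial (Fin (m + 1) × Fin c) ℂ) =
      monomial (∑ q, Finsupp.single ((0 : Fin (m + 1)), q) (lab q).1) 1 := by
    rw [monomial_sum_one]
    exact Finset.prod_congr rfl fun q _ => X_pow_eq_monomial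
  rw [h1, rename_monomial, monomial_mul, one_mul, Th_monomial]
  have h2 : (∏ q, X (Fin.cons (lab q).1 (fun k => u (k, q)) : Fin (m + 1) → ℕ) :
      MvPolynomial (Fin (m + 1) → ℕ) ℂ) =
      monomial (∑ q, Finsupp.single (Fin.cons (lab q).1 (fun k => u (k, q)) :
        Fin (m + 1) → ℕ) 1) 1 := by
    rw [monomial_sum_one]
    rfl
  rw [h2, smul_monomial, smul_eq_mul, mul_one]
  refine congrArg (fun e : (Fin (m + 1) → ℕ) →₀ ℕ => (monomial e (coeff u v) :
    MvPolynomial (Fin (m + 1) → ℕ) ℂ)) ?_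
  unfold cont
  refine Finset.sum_congr rfl fun q _ => ?_
  refine congrArg (fun y : Fin (m + 1) → ℕ => Finsupp.single y 1) ?_
  funext i
  unfold col
  rw [Finsupp.add_apply, Finsupp.finsetSum_apply]
  refine Fin.cases ?_ (fun i => ?_) i
  · have hz : ∑ q' : Fin c, (Finsupp.single ((0 : Fin (m + 1)), q') (lab q').1) (0, q) =
        (lab q).1 := by
      rw [Finset.sum_eq_single q, Finsupp.single_eq_same]
      · intro q' _ hq
        rw [Finsupp.single_apply, if_neg (fun h => hq (Prod.mk.inj h).2)]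
      · intro h
        exact absurd (Finset.mem_univ _) h
    have hz2 : Finsupp.mapDomain (fun p : Fin m × Fin c => ((p.1.succ : Fin (m + 1)), p.2)) u
        (0, q) = 0 := by
      apply Finsupp.mapDomain_of_notMem_range
      rintro ⟨p, hp⟩
      exact Fin.succ_ne_zero _ (Prod.mk.inj hp).1
    rw [Fin.cons_zero, hz, hz2, add_zero]
  · have hz : ∑ q' : Fin c, (Finsupp.single ((0 : Fin (m + 1)), q') (lab q').1)
        (i.succ, q) = 0 := by
      refine Finset.sum_eq_zero fun q' _ => ?_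
      rw [Finsupp.single_apply, if_neg (fun h => Fin.succ_ne_zero _ (Prod.mk.inj h).1.symm)]
    rw [Fin.cons_succ, hz, zero_add]
    exact Finsupp.mapDomain_apply hinj u (i, q)

/-- The statement on one triple. -/
def TriStmt : Prop := ∀ (m i : ℕ) (w : Fin m → ℕ), 2 ≤ i + ∑ k, w k →
  (Psi m (Th (m + 1) (Fin 3) (lf kA 0 ^ 2 * lf kC 0 ^ i * ∏ k, lf kC k.succ ^ w k))).natDegree ≤ 2 ∧
  (Psi m (Th (m + 1) (Fin 3) (lf kA 0 ^ 2 * lf kC 0 ^ i * ∏ k, lf kC k.succ ^ w k))).coeff 2 =
    C (kap i (∑ k, w k)) * X (Fin.cons i w : Fin (m + 1) → ℕ)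

/-- The top coefficient of the letters of `F_v`. -/
theorem top (hT : TriStmt) {ga : Fin g1 → ℂ} {gb : Fin g2 → ℂ} {lab : Fin c → ℕ × ℕ}
    {nu : Fin m → ℕ} {v : MvPolynomial (Fin m × Fin c) ℂ} (hv : v ∈ GP m (Fin c) lab nu)
    (hD : ∑ i, nu i ≤ g1) (hl : ∀ q, 2 ≤ (lab q).1 + (lab q).2) :
    (Psi m (Th (m + 1) (Cols c g1 g2) (FV ga gb (∑ i, nu i) lab v))).natDegree ≤
        g1 + g2 + 2 * c ∧
      (Psi m (Th (m + 1) (Cols c g1 g2) (FV ga gb (∑ i, nu i) lab v))).coeff
          (g1 + g2 + 2 * c) =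
        C ((g1.factorial : ℂ) * ∏ p, ga p) * C ((g2.factorial : ℂ) * ∏ p, gb p) *
          C (∏ q, kap (lab q).1 (lab q).2) * Th (m + 1) (Fin c) (hat m c lab v) := by
  classical
  refine ⟨deg_QT (Tr3_FV hv hD hl), ?_⟩
  have h0 := coeff_QT_rho (Tr3_FV (ga := ga) (gb := gb) hv hD hl)
  rw [QT_apply] at h0
  rw [h0]
  have hD' : ∀ u, coeff u v ≠ 0 → ∑ p, u p = ∑ i, nu i := by
    intro u hu
    rw [Fintype.sum_prod_type]
    exact Finset.sum_congr rfl fun i _ => hv.1.1 u hu i
  rw [rho_FV hD hD', map_sum, Polynomial.finsetSum_coeff, Th_hat, Finset.mul_sum]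
  refine Finset.sum_congr rfl fun u hu => ?_
  have hu' := mem_support_iff.1 hu
  have h2 : QT m (Cols c g1 g2) (ren (m + 1) Sum.inl (∏ q, ren (m + 1) (fun t : Fin 3 => (q, t))
      (TP m (lab q).1 fun k => u (k, q))) *
        ren (m + 1) Sum.inr (ren (m + 1) Sum.inl (lf ga 0 ^ g1) *
          ren (m + 1) Sum.inr (lf gb 0 ^ g2))) =
      (∏ q, QT m (Fin 3) (TP m (lab q).1 fun k => u (k, q))) *
        (QT m (Fin g1) (lf ga 0 ^ g1) * QT m (Fin g2) (lf gb 0 ^ g2)) := by
    rw [QT_apply, Th_mul, Th_mul, Th_prod, map_mul, map_mul, map_prod]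
    rfl
  have h3 : ∀ q, 2 ≤ (lab q).1 + ∑ k, u (k, q) := by
    intro q
    rw [hv.2.1 u hu' q]
    exact hl q
  have h4 := fun q => hT m (lab q).1 (fun k => u (k, q)) (h3 q)
  have h5 : (∏ q, QT m (Fin 3) (TP m (lab q).1 fun k => u (k, q))).coeff (2 * c) =
      ∏ q, (C (kap (lab q).1 (lab q).2) *
        X (Fin.cons (lab q).1 (fun k => u (k, q)) : Fin (m + 1) → ℕ)) := by
    have h6 := Polynomial.coeff_prod_of_natDegree_le (s := (Finset.univ : Finset (Fin c)))
      (f := fun q => QT m (Fin 3) (TP m (lab q).1 fun k => u (k, q))) (n := 2)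
      (fun q _ => (h4 q).1)
    rw [Finset.card_univ, Fintype.card_fin, mul_comm c 2] at h6
    rw [h6]
    refine Finset.prod_congr rfl fun q _ => ?_
    rw [← hv.2.1 u hu' q]
    exact (h4 q).2
  have h7 : (∏ q, QT m (Fin 3) (TP m (lab q).1 fun k => u (k, q))).natDegree ≤ 2 * c := by
    refine (Polynomial.natDegree_prod_le _ _).trans ?_
    refine (Finset.sum_le_sum fun q _ => (h4 q).1).trans ?_
    rw [Finset.sum_const, Finset.card_univ, smul_eq_mul, Fintype.card_fin, mul_comm]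
  have h8 : (QT m (Fin g1) (lf ga 0 ^ g1) * QT m (Fin g2) (lf gb 0 ^ g2)).coeff (g1 + g2) =
      C ((g1.factorial : ℂ) * ∏ p, ga p) * C ((g2.factorial : ℂ) * ∏ p, gb p) := by
    rw [Polynomial.coeff_mul_add_eq_of_natDegree_le (deg_group_QT _) (deg_group_QT _),
      coeff_group_QT, coeff_group_QT]
  have h9 : (QT m (Fin g1) (lf ga 0 ^ g1) * QT m (Fin g2) (lf gb 0 ^ g2)).natDegree ≤
      g1 + g2 :=
    Polynomial.natDegree_mul_le.trans (Nat.add_le_add (deg_group_QT _) (deg_group_QT _))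
  rw [map_smul, h2, Polynomial.coeff_smul]
  have h10 := Polynomial.coeff_mul_add_eq_of_natDegree_le h7 h9
  rw [show 2 * c + (g1 + g2) = g1 + g2 + 2 * c by omega] at h10
  rw [h10, h5, h8, Finset.prod_mul_distrib, map_prod]
  rw [smul_eq_C_mul, smul_eq_C_mul]
  ring

end Vale.Agent.P181.ST.H775
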