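import Vale.Agent.P181.ST.H775.Top

set_option autoImplicit false

/-!
# P181, ST, T2b: the letters of one triple
-/

open MvPolynomial

namespace Vale.Agent.P181.ST.H775

open Vale.Agent.P181.SZR2 (weight_fintype)
open Vale.Agent.P181.DH.H674 (Th Th_monomial cont col)
open Vale.Agent.P181.ST.H607 (th Psi th_e0 th_small th_big Psi_Th_monomial kap lA lC ee tri0 tri1
  tri2 ee0 ee1 ee2)

variable {m : ℕ}

lemma wh_TP (α : Fin (m + 1) → ℕ) (i : ℕ) (w : Fin m → ℕ) :
    IsWeightedHomogeneous (fun p : Fin (m + 1) × Fin 3 => α p.1) (TP m i w)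
      ((2 + i) * α 0 + ∑ k, w k * α k.succ) := by
  have h : ∀ (k : Fin 3 → ℂ) (r : Fin (m + 1)),
      IsWeightedHomogeneous (fun p : Fin (m + 1) × Fin 3 => α p.1) (lf k r) (α r) := by
    intro k r
    unfold lf
    refine IsWeightedHomogeneous.sum _ _ _ fun c _ => ?_
    have h2 := (isWeightedHomogeneous_C (fun p : Fin (m + 1) × Fin 3 => α p.1) (k c)).mul
      (isWeightedHomogeneous_X ℂ (fun p : Fin (m + 1) × Fin 3 => α p.1) (r, c))
    rw [zero_add] at h2
    exact h2
  have e : (2 + i) * α 0 + ∑ k, w k * α k.succ =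
      2 • α 0 + i • α 0 + ∑ k, w k • α k.succ := by
    simp only [smul_eq_mul]
    ring
  rw [e]
  exact (((h kA 0).pow 2).mul ((h kC 0).pow i)).mul
    (IsWeightedHomogeneous.prod _ _ _ fun k _ => (h kC k.succ).pow (w k))

lemma row_TP {i : ℕ} {w : Fin m → ℕ} {u : Fin (m + 1) × Fin 3 →₀ ℕ}
    (hu : coeff u (TP m i w) ≠ 0) (r : Fin (m + 1)) :
    ∑ t, u (r, t) = (Fin.cons (2 + i) w : Fin (m + 1) → ℕ) r := by
  classical
  have h := wh_TP (fun x => if x = r then 1 else 0) i w hu
  rw [weight_fintype, Fintype.sum_prod_type, Finset.sum_eq_single r] at h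
  · simp only [if_true, mul_one] at h
    rw [h]
    refine Fin.cases ?_ (fun k => ?_) r
    · have e1 : ∀ k' : Fin m, ((k'.succ : Fin (m + 1)) = 0) = False := fun k' =>
        eq_false (Fin.succ_ne_zero k')
      simp only [e1, if_true, if_false, mul_one, mul_zero, Finset.sum_const_zero, add_zero,
        Fin.cons_zero]
    · have e1 : ((0 : Fin (m + 1)) = k.succ) = False := eq_false (Fin.succ_ne_zero k).symm
      have e2 : ∀ k' : Fin m, ((k'.succ : Fin (m + 1)) = k.succ) = (k' = k) := fun k' =>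
        propext Fin.succ_inj
      simp only [e1, e2, if_false, mul_zero, zero_add, mul_ite, mul_one, Finset.sum_ite_eq',
        Finset.mem_univ, if_true, Fin.cons_succ]
  · intro x _ hx
    refine Finset.sum_eq_zero fun t _ => ?_
    dsimp only
    rw [if_neg hx, mul_zero]
  · intro h'
    exact absurd (Finset.mem_univ _) h'

/-- The exponent with the big column `r`. -/
noncomputable def Er (i : ℕ) (w : Fin m → ℕ) (r : Fin 3) : Fin (m + 1) × Fin 3 →₀ ℕ :=
  Finsupp.equivFunOnFinite.symm (fun p => if p.2 = r then (Fin.cons i w : Fin (m + 1) → ℕ) p.1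
    else (Pi.single 0 1 : Fin (m + 1) → ℕ) p.1)

lemma Er_apply (i : ℕ) (w : Fin m → ℕ) (r : Fin 3) (x : Fin (m + 1)) (t : Fin 3) :
    Er i w r (x, t) = if t = r then (Fin.cons i w : Fin (m + 1) → ℕ) x
      else (Pi.single 0 1 : Fin (m + 1) → ℕ) x := rfl

lemma col_Er_self (i : ℕ) (w : Fin m → ℕ) (r : Fin 3) :
    col (Er i w r) r = (Fin.cons i w : Fin (m + 1) → ℕ) := by
  funext x
  unfold col
  rw [Er_apply, if_pos rfl]

lemma col_Er_ne (i : ℕ) (w : Fin m → ℕ) {r t : Fin 3} (h : t ≠ r) :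
    col (Er i w r) t = Pi.single 0 1 := by
  funext x
  unfold col
  rw [Er_apply, if_neg h]

lemma eq_Er {i : ℕ} {w : Fin m → ℕ} {u : Fin (m + 1) × Fin 3 →₀ ℕ}
    (hu : ∀ r, ∑ t, u (r, t) = (Fin.cons (2 + i) w : Fin (m + 1) → ℕ) r) {r : Fin 3}
    (h : ∀ t, t ≠ r → col u t = Pi.single 0 1) : u = Er i w r := by
  classical
  ext ⟨x, t⟩
  rw [Er_apply]
  by_cases ht : t = r
  · subst ht
    rw [if_pos rfl]
    have h1 := hu x
    rw [← Finset.add_sum_erase _ _ (Finset.mem_univ t)] at h1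
    have h2 : ∑ s ∈ Finset.univ.erase t, u (x, s) =
        2 * (Pi.single 0 1 : Fin (m + 1) → ℕ) x := by
      have h3 : ∀ s ∈ Finset.univ.erase t, u (x, s) = (Pi.single 0 1 : Fin (m + 1) → ℕ) x :=
        fun s hs => congrFun (h s (Finset.ne_of_mem_erase hs)) x
      rw [Finset.sum_congr rfl h3, Finset.sum_const, Finset.card_erase_of_mem (Finset.mem_univ t),
        Finset.card_univ, Fintype.card_fin, smul_eq_mul]
    rw [h2] at h1
    revert h1
    refine Fin.cases ?_ (fun k => ?_) x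
    · rw [Pi.single_eq_same, Fin.cons_zero, Fin.cons_zero]
      omega
    · rw [Pi.single_eq_of_ne (Fin.succ_ne_zero k), Fin.cons_succ, Fin.cons_succ]
      omega
  · rw [if_neg ht]
    exact congrFun (h t ht) x

lemma sum_cons (i : ℕ) (w : Fin m → ℕ) :
    ∑ x, (Fin.cons i w : Fin (m + 1) → ℕ) x = i + ∑ k, w k := by
  rw [Fin.sum_univ_succ, Fin.cons_zero]
  rfl

lemma Er_inj {i : ℕ} {w : Fin m → ℕ} (hw : 2 ≤ i + ∑ k, w k) {r s : Fin 3}
    (h : Er i w r = Er i w s) : r = s := by
  by_contra hne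
  have h1 := col_Er_self i w r
  rw [h, col_Er_ne i w hne] at h1
  have h2 := sum_cons i w
  rw [← h1, sum_single0] at h2
  omega

lemma deg_two {u : Fin (m + 1) × Fin 3 →₀ ℕ} {s t : Fin 3} (hst : s ≠ t)
    (hs : col u s ≠ Pi.single 0 1) (ht : col u t ≠ Pi.single 0 1) :
    (∏ x, th m (col u x)).natDegree ≤ 1 := by
  classical
  refine (Polynomial.natDegree_prod_le _ _).trans ?_
  rw [← Finset.add_sum_erase _ _ (Finset.mem_univ s), deg_th_ne hs, zero_add,
    ← Finset.add_sum_erase (Finset.univ.erase s) _ (a := t)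
      (Finset.mem_erase.2 ⟨hst.symm, Finset.mem_univ t⟩), deg_th_ne ht, zero_add]
  refine (Finset.sum_le_sum fun j _ => deg_th_le (col u j)).trans ?_
  rw [Finset.sum_const, smul_eq_mul, mul_one,
    Finset.card_erase_of_mem (Finset.mem_erase.2 ⟨hst.symm, Finset.mem_univ t⟩),
    Finset.card_erase_of_mem (Finset.mem_univ s), Finset.card_univ, Fintype.card_fin]

lemma coeff_prod_th {i : ℕ} {w : Fin m → ℕ} (hw : 2 ≤ i + ∑ k, w k)
    {u : Fin (m + 1) × Fin 3 →₀ ℕ}
    (hu : ∀ r, ∑ t, u (r, t) = (Fin.cons (2 + i) w : Fin (m + 1) → ℕ) r) :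
    (∏ x, th m (col u x)).coeff 2 =
      ∑ r : Fin 3, if u = Er i w r then X (Fin.cons i w : Fin (m + 1) → ℕ) else 0 := by
  classical
  by_cases h : ∃ r, ∀ t, t ≠ r → col u t = Pi.single 0 1
  · obtain ⟨r, hr⟩ := h
    have h1 := eq_Er hu hr
    rw [Finset.sum_eq_single r]
    · rw [if_pos h1, ← Finset.mul_prod_erase _ _ (Finset.mem_univ r)]
      have h2 : ∏ x ∈ Finset.univ.erase r, th m (col u x) = Polynomial.X ^ 2 := by
        rw [Finset.prod_congr rfl fun x hx => by rw [hr x (Finset.ne_of_mem_erase hx), th_e0],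
          Finset.prod_const, Finset.card_erase_of_mem (Finset.mem_univ r), Finset.card_univ,
          Fintype.card_fin]
      have h3 : col u r = (Fin.cons i w : Fin (m + 1) → ℕ) := by rw [h1, col_Er_self]
      rw [h2, h3, th_big (by rw [sum_cons]; exact hw), Polynomial.coeff_C_mul,
        Polynomial.coeff_X_pow_self, mul_one]
    · intro s _ hs
      rw [if_neg]
      intro h2
      exact hs (Er_inj hw (h2.symm.trans h1))
    · intro h'
      exact absurd (Finset.mem_univ _) h'
  · have h2 : ∀ r, ∃ t, t ≠ r ∧ col u t ≠ Pi.single 0 1 := by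
      intro r
      by_contra hcon
      push Not at hcon
      exact h ⟨r, hcon⟩
    obtain ⟨s, -, hs⟩ := h2 0
    obtain ⟨t, hts, ht⟩ := h2 s
    rw [Polynomial.coeff_eq_zero_of_natDegree_lt
      (Nat.lt_of_le_of_lt (deg_two hts ht hs) Nat.one_lt_two)]
    symm
    refine Finset.sum_eq_zero fun r _ => ?_
    rw [if_neg]
    intro h3
    apply h
    exact ⟨r, fun t ht => by rw [h3, col_Er_ne i w ht]⟩

/-! ### The coefficients -/

/-- Row zero, the tails in the column `r` are one, the others zero. -/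
noncomputable def eta (m : ℕ) (r : Fin 3) :
    MvPolynomial (Fin (m + 1) × Fin 3) ℂ →ₐ[ℂ] MvPolynomial (Fin 3) ℂ :=
  aeval fun p => Fin.cases (X p.2) (fun _ => if p.2 = r then 1 else 0) p.1

lemma eta_X0 (r t : Fin 3) : eta m r (X (0, t)) = X t := by
  rw [eta, aeval_X]
  rfl

lemma eta_Xs (r t : Fin 3) (k : Fin m) : eta m r (X (k.succ, t)) = if t = r then 1 else 0 := by
  rw [eta, aeval_X]
  rfl

lemma eta_lfs (r : Fin 3) (k : Fin m) (a : Fin 3 → ℂ) : eta m r (lf a k.succ) = C (a r) := by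
  unfold lf
  rw [map_sum, Finset.sum_eq_single r]
  · rw [map_mul, eta_Xs, if_pos rfl, mul_one]
    exact aeval_C _ _
  · intro t _ ht
    rw [map_mul, eta_Xs, if_neg ht, mul_zero]
  · intro h
    exact absurd (Finset.mem_univ _) h

lemma eta_C (r : Fin 3) (z : ℂ) : eta m r (C z) = C z := aeval_C _ _

lemma eta_lfA (r : Fin 3) : eta m r (lf kA 0) = lA := by
  unfold lf lA
  rw [map_sum, Fin.sum_univ_three]
  simp only [map_mul, eta_X0, eta_C, kA]
  simp
  ring

lemma eta_lfC (r : Fin 3) : eta m r (lf kC 0) = lC := by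
  unfold lf lC
  rw [map_sum, Fin.sum_univ_three]
  simp only [map_mul, eta_X0, eta_C, kC]
  simp
  ring

lemma eta_TP (r : Fin 3) (i : ℕ) (w : Fin m → ℕ) :
    eta m r (TP m i w) = C (kC r ^ ∑ k, w k) * (lA ^ 2 * lC ^ i) := by
  unfold TP
  rw [map_mul, map_mul, map_pow, map_pow, map_prod, eta_lfA, eta_lfC]
  have h : ∏ k, eta m r (lf kC k.succ ^ w k) = C (kC r ^ ∑ k, w k) := by
    rw [← Finset.prod_pow_eq_pow_sum, map_prod]
    refine Finset.prod_congr rfl fun k _ => ?_
    rw [map_pow, eta_lfs, map_pow]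
  rw [h]
  ring

/-- The row zero of `Er`. -/
noncomputable def ar (i : ℕ) (r : Fin 3) : Fin 3 →₀ ℕ :=
  Finsupp.equivFunOnFinite.symm fun t => if t = r then i else 1

lemma ar_apply (i : ℕ) (r t : Fin 3) : ar i r t = if t = r then i else 1 := rfl

lemma eta_monomial {i : ℕ} {w : Fin m → ℕ} {u : Fin (m + 1) × Fin 3 →₀ ℕ}
    (hu : ∀ r, ∑ t, u (r, t) = (Fin.cons (2 + i) w : Fin (m + 1) → ℕ) r) (r : Fin 3) (z : ℂ) :
    coeff (ar i r) (eta m r (monomial u z)) = if u = Er i w r then z else 0 := by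
  classical
  rw [eta, aeval_monomial, Finsupp.prod_fintype _ _ (fun _ => pow_zero _),
    Fintype.prod_prod_type, Fin.prod_univ_succ]
  have hX : ∏ t, ((Fin.cases (X ((0 : Fin (m + 1)), t).2)
      (fun _ => if ((0 : Fin (m + 1)), t).2 = r then 1 else 0) ((0 : Fin (m + 1)), t).1 :
        MvPolynomial (Fin 3) ℂ)) ^ u (0, t) =
      monomial (Finsupp.equivFunOnFinite.symm fun t => u (0, t)) 1 := by
    rw [monomial_eq, C_1, one_mul, Finsupp.prod_fintype _ _ (fun _ => pow_zero _)]
    rfl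
  rw [hX]
  have hC : (algebraMap ℂ (MvPolynomial (Fin 3) ℂ)) z = C z := rfl
  rw [hC, coeff_C_mul]
  by_cases h : ∃ (k : Fin m) (t : Fin 3), t ≠ r ∧ u (k.succ, t) ≠ 0
  · obtain ⟨k, t, ht, hk⟩ := h
    rw [if_neg]
    · rw [Finset.prod_eq_zero (i := k) (Finset.mem_univ k), mul_zero, coeff_zero, mul_zero]
      apply Finset.prod_eq_zero (i := t) (Finset.mem_univ t)
      change (if t = r then (1 : MvPolynomial (Fin 3) ℂ) else 0) ^ u (k.succ, t) = 0
      rw [if_neg ht, zero_pow hk]
    · intro h1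
      apply hk
      rw [h1, Er_apply, if_neg ht, Pi.single_eq_of_ne (Fin.succ_ne_zero k)]
  · push Not at h
    have h1 : ∏ k : Fin m, ∏ t : Fin 3, ((Fin.cases (X (k.succ, t).2)
        (fun _ => if (k.succ, t).2 = r then 1 else 0) (k.succ, t).1 :
          MvPolynomial (Fin 3) ℂ)) ^ u (k.succ, t) = 1 := by
      refine Finset.prod_eq_one fun k _ => Finset.prod_eq_one fun t _ => ?_
      change (if t = r then (1 : MvPolynomial (Fin 3) ℂ) else 0) ^ u (k.succ, t) = 1
      by_cases ht : t = r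
      · rw [if_pos ht, one_pow]
      · rw [h k t ht, pow_zero]
    rw [h1, mul_one, coeff_monomial]
    by_cases h2 : u = Er i w r
    · rw [if_pos h2, if_pos, mul_one]
      ext t
      rw [ar_apply]
      change u (0, t) = _
      rw [h2, Er_apply, Fin.cons_zero, Pi.single_eq_same]
    · rw [if_neg h2, if_neg, mul_zero]
      intro h3
      apply h2
      apply eq_Er hu
      intro t ht
      funext x
      refine Fin.cases ?_ (fun k => ?_) x
      · have h4 := DFunLike.congr_fun h3 t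
        rw [ar_apply, if_neg ht] at h4
        rw [Pi.single_eq_same]
        exact h4
      · rw [Pi.single_eq_of_ne (Fin.succ_ne_zero k)]
        exact h k t ht

lemma coeff_Er (i : ℕ) (w : Fin m → ℕ) (r : Fin 3) :
    coeff (Er i w r) (TP m i w) = kC r ^ (∑ k, w k) * coeff (ar i r) (lA ^ 2 * lC ^ i) := by
  classical
  rw [← coeff_C_mul, ← eta_TP (m := m)]
  conv_rhs => rw [(TP m i w).as_sum]
  rw [map_sum, coeff_sum, Finset.sum_congr rfl fun u hu =>
    eta_monomial (fun x => row_TP (mem_support_iff.1 hu) x) r _, Finset.sum_ite_eq']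
  split_ifs with h
  · rfl
  · exact notMem_support_iff.1 h

lemma sum_Er (i : ℕ) (w : Fin m → ℕ) :
    ∑ r, coeff (Er i w r) (TP m i w) = kap i (∑ k, w k) := by
  have h0 : ar i 0 = ee i 1 1 := by
    ext t
    fin_cases t
    · exact (ee0 i 1 1).symm
    · exact (ee1 i 1 1).symm
    · exact (ee2 i 1 1).symm
  have h1 : ar i 1 = ee 1 i 1 := by
    ext t
    fin_cases t
    · exact (ee0 1 i 1).symm
    · exact (ee1 1 i 1).symm
    · exact (ee2 1 i 1).symm
  have h2 : ar i 2 = ee 1 1 i := by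
    ext t
    fin_cases t
    · exact (ee0 1 1 i).symm
    · exact (ee1 1 1 i).symm
    · exact (ee2 1 1 i).symm
  have k0 : kC 0 = 1 := rfl
  have k1 : kC 1 = 1 := rfl
  have k2 : kC 2 = -2 := rfl
  rw [Fin.sum_univ_three, coeff_Er, coeff_Er, coeff_Er, h0, h1, h2, tri0, tri1, tri2, k0, k1, k2,
    kap, one_pow]
  ring

/-- **(T2b)** -/
theorem tri : TriStmt := by
  classical
  intro m i w hw
  change (QT m (Fin 3) (TP m i w)).natDegree ≤ 2 ∧ (QT m (Fin 3) (TP m i w)).coeff 2 =
    C (kap i (∑ k, w k)) * X (Fin.cons i w : Fin (m + 1) → ℕ)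
  constructor
  · conv_lhs => rw [(TP m i w).as_sum]
    rw [map_sum]
    refine Polynomial.natDegree_sum_le_of_forall_le _ _ fun u hu => ?_
    rw [QT_monomial]
    refine (deg_C_mul _ _).trans ?_
    have hrow := fun x => row_TP (mem_support_iff.1 hu) x
    obtain ⟨t, ht⟩ : ∃ t, col u t ≠ Pi.single 0 1 := by
      by_contra hcon
      push Not at hcon
      have h1 : ∑ x, ∑ t, u (x, t) = 3 := by
        rw [Finset.sum_comm]
        have h2 : ∀ t : Fin 3, ∑ x, u (x, t) = 1 := by
          intro t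
          have h3 : ∀ x, u (x, t) = (Pi.single 0 1 : Fin (m + 1) → ℕ) x :=
            fun x => congrFun (hcon t) x
          rw [Finset.sum_congr rfl fun x _ => h3 x, sum_single0]
        rw [Finset.sum_congr rfl fun t _ => h2 t, Finset.sum_const, Finset.card_univ,
          Fintype.card_fin, smul_eq_mul, mul_one]
      rw [Finset.sum_congr rfl fun x _ => hrow x, sum_cons] at h1
      omega
    have h1 := deg_prod_lt (fun t : Fin 3 => col u t) ht
    rw [Fintype.card_fin] at h1
    omega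
  · conv_lhs => rw [(TP m i w).as_sum]
    rw [map_sum, Polynomial.finsetSum_coeff]
    have h1 : ∀ u ∈ (TP m i w).support, (QT m (Fin 3) (monomial u (coeff u (TP m i w)))).coeff 2 =
        ∑ r : Fin 3, if u = Er i w r then
          C (coeff u (TP m i w)) * X (Fin.cons i w : Fin (m + 1) → ℕ) else 0 := by
      intro u hu
      rw [QT_monomial, Polynomial.coeff_C_mul,
        coeff_prod_th hw (fun x => row_TP (mem_support_iff.1 hu) x), Finset.mul_sum]
      refine Finset.sum_congr rfl fun r _ => ?_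
      rw [mul_ite, mul_zero]
    rw [Finset.sum_congr rfl h1, Finset.sum_comm, ← sum_Er, map_sum, Finset.sum_mul]
    refine Finset.sum_congr rfl fun r _ => ?_
    rw [Finset.sum_ite_eq']
    split_ifs with h
    · rfl
    · rw [notMem_support_iff.1 h, map_zero, zero_mul]

end Vale.Agent.P181.ST.H775
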